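import Vale.Agent.P254.Uncond.Check.Poly

/-!
Verified dyadic bounds for exponentials, and lower bounds for products with `exp (-a)`.
-/

namespace Vale.Agent.P254.Uncond.Check

open Finset

/-- `n! * ∑_{i < n} y ^ i / i!`. -/
def taySum (y : Dy) : ℕ → Dy × Dy
  | 0 => (Dy.int 0, Dy.int 1)
  | n + 1 => match taySum y n with
    | (P, p) => ((P.add p).mul (Dy.int (n + 1 : ℕ)), p.mul y)

lemma taySum_spec (y : Dy) : ∀ n, (taySum y n).2.val = y.val ^ n ∧
    (taySum y n).1.val = (n.factorial : ℝ) * ∑ i ∈ range n, y.val ^ i / (i.factorial : ℝ)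
  | 0 => by simp [taySum]
  | n + 1 => by
    obtain ⟨h1, h2⟩ := taySum_spec y n
    simp only [taySum, Dy.val_mul, Dy.val_add, h1, h2, Dy.val_int, Int.cast_natCast]
    refine ⟨by ring, ?_⟩
    rw [sum_range_succ, Nat.factorial_succ]
    have : (n.factorial : ℝ) ≠ 0 := Nat.cast_ne_zero.2 (Nat.factorial_ne_zero n)
    push_cast
    field_simp

/-- A power by repeated squaring. -/
def Dy.sqN : ℕ → Dy → Dy
  | 0, a => a
  | j + 1, a => match Dy.sqN j a with
    | b => b.mul b

lemma Dy.val_sqN : ∀ (j : ℕ) (a : Dy), (Dy.sqN j a).val = a.val ^ (2 ^ j)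
  | 0, a => by simp [Dy.sqN]
  | j + 1, a => by
    simp only [Dy.sqN, Dy.val_mul, Dy.val_sqN j a, pow_succ, pow_mul]
    ring

/-- The number of squarings. -/
def expJ : ℕ := 5

/-- The number of Taylor terms. -/
def expN : ℕ := 14

/-- The argument after scaling down. -/
def expY (x : Dy) : Dy := ⟨x.m, x.k + expJ⟩

/-- The test that `E` is an upper bound for `exp x`. -/
def expUp (x E : Dy) : Bool :=
  decide (0 ≤ x.m) && (expY x).le (Dy.int 1) &&
    (Dy.sqN expJ (((taySum (expY x) expN).1.mul (Dy.int expN)).add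
      ((taySum (expY x) expN).2.mul (Dy.int (expN + 1 : ℕ))))).le
      (E.mul (Dy.sqN expJ (Dy.int (expN * expN.factorial : ℕ))))

/-- The test that `E` is a lower bound for `exp x`. -/
def expDown (x E : Dy) : Bool :=
  decide (0 ≤ x.m) &&
    (E.mul (Dy.sqN expJ (Dy.int (expN.factorial : ℕ)))).le (Dy.sqN expJ (taySum (expY x) expN).1)

lemma expY_val (x : Dy) : (expY x).val * (2 ^ expJ : ℕ) = x.val := by
  simp only [expY, Dy.val, pow_add]
  push_cast
  field_simp

lemma exp_expY (x : Dy) : Real.exp x.val = Real.exp (expY x).val ^ (2 ^ expJ) := by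
  rw [← Real.exp_nat_mul, mul_comm, expY_val]

theorem expUp_spec {x E : Dy} (h : expUp x E = true) : Real.exp x.val ≤ E.val := by
  simp only [expUp, Bool.and_eq_true, decide_eq_true_eq] at h
  obtain ⟨⟨h0, h1⟩, h2⟩ := h
  have h2 := Dy.le_spec h2
  have h1 := Dy.le_spec h1
  obtain ⟨e1, e2⟩ := taySum_spec (expY x) expN
  have hy0 : 0 ≤ (expY x).val := Dy.val_nonneg h0
  simp only [Dy.val_mul, Dy.val_sqN, Dy.val_add, Dy.val_int, e1, e2, Int.cast_natCast] at h2
  rw [Dy.val_int, Int.cast_one] at h1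
  have hb := Real.exp_bound' hy0 h1 (show 0 < expN by decide)
  set S := ∑ i ∈ range expN, (expY x).val ^ i / (i.factorial : ℝ)
  have hk : (0:ℝ) < ((expN * expN.factorial : ℕ) : ℝ) := by
    exact_mod_cast Nat.mul_pos (by decide) (Nat.factorial_pos expN)
  have he : Real.exp (expY x).val * ((expN * expN.factorial : ℕ) : ℝ) ≤
      (expN.factorial : ℝ) * S * expN + (expY x).val ^ expN * ((expN + 1 : ℕ) : ℝ) := by
    refine (mul_le_mul_of_nonneg_right hb hk.le).trans_eq ?_
    have : (expN.factorial : ℝ) ≠ 0 := Nat.cast_ne_zero.2 (Nat.factorial_ne_zero _)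
    have : ((expN : ℕ) : ℝ) ≠ 0 := by norm_num [expN]
    push_cast
    field_simp
  have h3 := (pow_le_pow_left₀ (by positivity) he (2 ^ expJ)).trans h2
  rw [mul_pow, ← exp_expY] at h3
  exact le_of_mul_le_mul_right h3 (pow_pos hk _)

theorem expDown_spec {x E : Dy} (h : expDown x E = true) : E.val ≤ Real.exp x.val := by
  simp only [expDown, Bool.and_eq_true, decide_eq_true_eq] at h
  obtain ⟨h0, h2⟩ := h
  have h2 := Dy.le_spec h2
  obtain ⟨-, e2⟩ := taySum_spec (expY x) expN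
  have hy0 : 0 ≤ (expY x).val := Dy.val_nonneg h0
  simp only [Dy.val_mul, Dy.val_sqN, Dy.val_int, e2, Int.cast_natCast, mul_pow] at h2
  have hS0 : 0 ≤ ∑ i ∈ range expN, (expY x).val ^ i / (i.factorial : ℝ) := by positivity
  have hb := pow_le_pow_left₀ hS0 (Real.sum_le_exp_of_nonneg hy0 expN) (2 ^ expJ)
  rw [← exp_expY] at hb
  have hk : (0:ℝ) < (expN.factorial : ℝ) ^ 2 ^ expJ :=
    pow_pos (Nat.cast_pos.2 (Nat.factorial_pos _)) _
  refine le_of_mul_le_mul_right ?_ hk
  linarith [mul_le_mul_of_nonneg_right hb hk.le]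

/-- Bounds at one point: lower and upper for `exp x` and for `exp (-x)`. -/
structure ExpB where
  /-- lower bound for `exp x` -/
  lo : Dy
  /-- upper bound for `exp x` -/
  hi : Dy
  /-- lower bound for `exp (-x)` -/
  nlo : Dy
  /-- upper bound for `exp (-x)` -/
  nhi : Dy

/-- The test of the bounds. -/
def ExpB.ok (B : ExpB) (x : Dy) : Bool :=
  expUp x B.hi && expDown x B.lo && decide (0 ≤ B.nlo.m) && decide (0 ≤ B.nhi.m) &&
    (B.nlo.mul B.hi).le (Dy.int 1) && (Dy.int 1).le (B.nhi.mul B.lo)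

theorem ExpB.ok_spec {B : ExpB} {x : Dy} (h : B.ok x = true) :
    B.lo.val ≤ Real.exp x.val ∧ Real.exp x.val ≤ B.hi.val ∧
      B.nlo.val ≤ Real.exp (-x.val) ∧ Real.exp (-x.val) ≤ B.nhi.val := by
  simp only [ExpB.ok, Bool.and_eq_true, decide_eq_true_eq] at h
  obtain ⟨⟨⟨⟨⟨a, b⟩, c⟩, d⟩, e⟩, f⟩ := h
  have a := expUp_spec a
  have b := expDown_spec b
  have c := Dy.val_nonneg c
  have d := Dy.val_nonneg d
  have e := Dy.le_spec e
  have f := Dy.le_spec f
  simp only [Dy.val_mul, Dy.val_int, Int.cast_one] at e f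
  refine ⟨b, a, ?_, ?_⟩ <;> rw [Real.exp_neg]
  · rw [← one_div, le_div_iff₀ (Real.exp_pos _)]
    exact (mul_le_mul_of_nonneg_left a c).trans e
  · rw [inv_le_iff_one_le_mul₀ (Real.exp_pos _)]
    exact f.trans (mul_le_mul_of_nonneg_left b d)

/-- A lower bound for `exp (-x) * F` from bounds at `x`. -/
def ExpB.lowMul (B : ExpB) (F : Dy) : Dy := if 0 ≤ F.m then B.nlo.mul F else B.nhi.mul F

theorem ExpB.lowMul_spec {B : ExpB} {x : Dy} (h : B.ok x = true) (F : Dy) :
    (B.lowMul F).val ≤ Real.exp (-x.val) * F.val := by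
  obtain ⟨-, -, a, b⟩ := ExpB.ok_spec h
  unfold ExpB.lowMul
  split
  · rw [Dy.val_mul]; exact mul_le_mul_of_nonneg_right a (Dy.val_nonneg (by assumption))
  · rename_i hF
    rw [Dy.val_mul]
    refine mul_le_mul_of_nonpos_right b (div_nonpos_of_nonpos_of_nonneg ?_ (by positivity))
    exact_mod_cast (not_le.1 hF).le

end Vale.Agent.P254.Uncond.Check
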