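import Vale.Agent.P254.Uncond.Check.Poly

/-!
Splines with dyadic data, written with truncated powers: derivatives, and their polynomial on an
interval free of knots.
-/

namespace Vale.Agent.P254.Uncond.Check

open Filter Topology

/-- Data of a spline: a polynomial and truncated powers given by knot and coefficient. -/
structure Spl where
  /-- coefficients of the polynomial part -/
  base : List Dy
  /-- knots and coefficients -/
  trs : List (Dy × Dy)

/-- The positive part. -/
noncomputable def pp (x : ℝ) : ℝ := max 0 x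

/-- The truncated powers. -/
noncomputable def trVal (e : ℕ) : List (Dy × Dy) → ℝ → ℝ
  | [], _ => 0
  | t :: r, s => t.2.val * pp (s - t.1.val) ^ e + trVal e r s

/-- The value of the spline with exponent `e`. -/
noncomputable def Spl.val (S : Spl) (e : ℕ) (s : ℝ) : ℝ := evalDy S.base s + trVal e S.trs s

/-- Coefficients of the derivative, with the index shifted by `j`. -/
def dList : ℕ → List Dy → List Dy
  | _, [] => []
  | j, a :: r => a.mul (Dy.int j) :: dList (j + 1) r

/-- The derivative of a spline with exponent `e`. -/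
def Spl.der (S : Spl) (e : ℕ) : Spl :=
  ⟨(dList 0 S.base).drop 1, S.trs.map fun t => (t.1, t.2.mul (Dy.int e))⟩

lemma evalDy_dList : ∀ (l : List Dy) (j : ℕ) (s : ℝ),
    evalDy (dList (j + 1) l) s = evalDy (dList j l) s + evalDy l s
  | [], _, _ => by simp [dList, evalDy]
  | a :: r, j, s => by
    simp only [dList, evalDy, evalDy_dList r (j + 1) s, Dy.val_mul, Dy.val_int]
    push_cast
    ring

lemma hasDerivAt_evalDy : ∀ (l : List Dy) (s : ℝ),
    HasDerivAt (evalDy l) (evalDy ((dList 0 l).drop 1) s) s
  | [], s => by simpa [dList, evalDy] using hasDerivAt_const s (0:ℝ)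
  | a :: r, s => by
    have h := ((hasDerivAt_id s).mul (hasDerivAt_evalDy r s)).const_add a.val
    refine h.congr_deriv ?_
    simp only [dList, List.drop_succ_cons, List.drop_zero, evalDy_dList, id_eq, one_mul]
    rcases r with _ | ⟨b, r⟩
    · simp [dList, evalDy]
    · simp only [dList, List.drop_succ_cons, List.drop_zero, evalDy, Dy.val_mul, Dy.val_int]
      push_cast
      ring

lemma hasDerivAt_pp_pow (e : ℕ) (k s : ℝ) :
    HasDerivAt (fun t => pp (t - k) ^ (e + 2)) ((e + 2 : ℕ) * pp (s - k) ^ (e + 1)) s := by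
  rcases lt_trichotomy s k with h | h | h
  · have hev : (fun t => pp (t - k) ^ (e + 2)) =ᶠ[𝓝 s] fun _ => (0:ℝ) := by
      filter_upwards [eventually_lt_nhds h] with t ht
      rw [pp, max_eq_left (by linarith : t - k ≤ 0)]
      simp
    rw [pp, max_eq_left (by linarith : s - k ≤ 0)]
    simpa using (hasDerivAt_const s (0:ℝ)).congr_of_eventuallyEq hev
  · subst h
    have h0 : pp (s - s) = 0 := by simp [pp]
    rw [h0]
    simp only [zero_pow (Nat.succ_ne_zero _), mul_zero]
    rw [hasDerivAt_iff_isLittleO_nhds_zero]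
    simp only [smul_zero, sub_zero, h0, add_sub_cancel_left, ne_eq, add_eq_zero, OfNat.ofNat_ne_zero,
      and_false, not_false_eq_true, zero_pow]
    refine (Asymptotics.isBigO_of_le _ fun t => ?_).trans_isLittleO
      (Asymptotics.isLittleO_pow_id (show 1 < e + 2 by omega))
    rw [norm_pow, norm_pow]
    refine pow_le_pow_left₀ (norm_nonneg _) ?_ _
    rw [pp, Real.norm_eq_abs, Real.norm_eq_abs, abs_of_nonneg (le_max_left _ _)]
    exact max_le (abs_nonneg _) (le_abs_self _)
  · have hev : (fun t => pp (t - k) ^ (e + 2)) =ᶠ[𝓝 s] fun t => (t - k) ^ (e + 2) := by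
      filter_upwards [eventually_gt_nhds h] with t ht
      rw [pp, max_eq_right (by linarith : 0 ≤ t - k)]
    rw [pp, max_eq_right (by linarith : 0 ≤ s - k)]
    have h1 := ((hasDerivAt_id s).sub_const k).pow (e + 2)
    simp only [id_eq, mul_one] at h1
    exact h1.congr_of_eventuallyEq hev

lemma hasDerivAt_trVal (e : ℕ) : ∀ (l : List (Dy × Dy)) (s : ℝ),
    HasDerivAt (trVal (e + 2) l)
      (trVal (e + 1) (l.map fun t => (t.1, t.2.mul (Dy.int ((e + 2 : ℕ) : ℤ)))) s) s
  | [], s => by simpa [trVal] using hasDerivAt_const s (0:ℝ)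
  | t :: r, s => by
    have h := ((hasDerivAt_pp_pow e t.1.val s).const_mul t.2.val).add (hasDerivAt_trVal e r s)
    refine h.congr_deriv ?_
    simp only [List.map_cons, trVal, Dy.val_mul, Dy.val_int, Int.cast_natCast]
    ring

/-- A spline with exponent at least two is differentiable. -/
theorem Spl.hasDerivAt (S : Spl) (e : ℕ) (s : ℝ) :
    HasDerivAt (S.val (e + 2)) ((S.der (e + 2)).val (e + 1) s) s :=
  (hasDerivAt_evalDy S.base s).add (hasDerivAt_trVal e S.trs s)

lemma continuous_evalDy : ∀ l : List Dy, Continuous (evalDy l)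
  | [] => continuous_const
  | _ :: r => continuous_const.add (continuous_id.mul (continuous_evalDy r))

lemma continuous_trVal (e : ℕ) : ∀ l : List (Dy × Dy), Continuous (trVal e l)
  | [] => continuous_const
  | _ :: r => (continuous_const.mul
      ((continuous_const.max (continuous_id.sub continuous_const)).pow e)).add (continuous_trVal e r)

/-- Splines are continuous. -/
theorem Spl.continuous (S : Spl) (e : ℕ) : Continuous (S.val e) :=
  (continuous_evalDy S.base).add (continuous_trVal e S.trs)

/-- No knot lies inside `[a, b]`. -/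
def Spl.free (S : Spl) (a b : Dy) : Bool :=
  S.trs.all fun t => t.1.le a || b.le t.1

/-- A power. -/
def QP.pow {n : ℕ} (p : QP n) : ℕ → QP n
  | 0 => QP.con n (Dy.int 1)
  | k + 1 => p.mul (p.pow k)

@[simp] lemma QP.val_pow {n : ℕ} (p : QP n) (x : ℕ → ℝ) : ∀ k, (p.pow k).val x = p.val x ^ k
  | 0 => by simp [QP.pow]
  | k + 1 => by rw [QP.pow, QP.val_mul, QP.val_pow p x k, pow_succ]; ring

/-- The sum of two coefficient lists. -/
def addL : List Dy → List Dy → List Dy
  | [], r => r
  | l, [] => l
  | x :: l, y :: r => x.add y :: addL l r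

lemma evalDy_addL (s : ℝ) : ∀ l r : List Dy, evalDy (addL l r) s = evalDy l s + evalDy r s
  | [], r => by simp [addL, evalDy]
  | _ :: _, [] => by simp [addL, evalDy]
  | x :: l, y :: r => by
    simp only [addL, evalDy, Dy.val_add, evalDy_addL s l r]
    ring

lemma evalDy_map_mul (a : Dy) (s : ℝ) : ∀ l : List Dy,
    evalDy (l.map a.mul) s = a.val * evalDy l s
  | [] => by simp [evalDy]
  | x :: l => by
    simp only [List.map_cons, evalDy, Dy.val_mul, evalDy_map_mul a s l]
    ring

/-- The coefficients of `c (t - k) ^ e`. -/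
def powL (k c : Dy) : ℕ → List Dy
  | 0 => [c]
  | e + 1 => addL (Dy.int 0 :: powL k c e) ((powL k c e).map k.neg.mul)

lemma evalDy_powL (k c : Dy) (s : ℝ) : ∀ e, evalDy (powL k c e) s = c.val * (s - k.val) ^ e
  | 0 => by simp [powL, evalDy]
  | e + 1 => by
    simp only [powL, evalDy_addL, evalDy_map_mul, Dy.val_neg, evalDy, evalDy_powL k c s e,
      Dy.val_int, Int.cast_zero, pow_succ]
    ring

/-- The coefficients of the truncated powers which are active from `a` on. -/
def trList (e : ℕ) (a : Dy) : List (Dy × Dy) → List Dy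
  | [] => []
  | t :: r => if t.1.le a then addL (powL t.1 t.2 e) (trList e a r) else trList e a r

/-- The polynomial of a spline on an interval starting at `a`. -/
def Spl.poly {n : ℕ} (S : Spl) (e : ℕ) (a : Dy) (X : QP n) : QP n :=
  X.horner (addL S.base (trList e a S.trs))

lemma trList_val {e : ℕ} {a : Dy} {s : ℝ} :
    ∀ l : List (Dy × Dy), (∀ t ∈ l, (t.1.le a = true ∧ 0 ≤ s - t.1.val) ∨
      (t.1.le a = false ∧ s ≤ t.1.val)) → e ≠ 0 →
      evalDy (trList e a l) s = trVal e l s
  | [], _, _ => by simp [trList, trVal, evalDy]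
  | t :: r, h, he => by
    have hr := trList_val r (fun u hu => h u (List.mem_cons_of_mem _ hu)) he
    rcases h t (List.mem_cons_self ..) with ⟨h1, h2⟩ | ⟨h1, h2⟩
    · simp [trList, trVal, h1, hr, evalDy_addL, evalDy_powL, pp, max_eq_right h2]
    · simp [trList, trVal, h1, hr, pp, max_eq_left (sub_nonpos.2 h2), he]

/-- On an interval free of knots the spline is its polynomial. -/
theorem Spl.poly_val {n : ℕ} (S : Spl) {e : ℕ} (he : e ≠ 0) {a b : Dy} (hfree : S.free a b = true)
    {X : QP n} {x : ℕ → ℝ} (ha : a.val ≤ X.val x) (hb : X.val x ≤ b.val) :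
    (S.poly e a X).val x = S.val e (X.val x) := by
  rw [Spl.poly, QP.val_horner, evalDy_addL, Spl.val, trList_val _ (fun t ht => ?_) he]
  simp only [Spl.free, List.all_eq_true, Bool.or_eq_true] at hfree
  rcases h : t.1.le a with _ | _
  · refine Or.inr ⟨rfl, ?_⟩
    rcases hfree t ht with h' | h'
    · rw [h] at h'; exact absurd h' Bool.false_ne_true
    · exact hb.trans (Dy.le_spec h')
  · exact Or.inl ⟨rfl, by linarith [Dy.le_spec h]⟩

/-- All knots lie at most at `a`. -/
def Spl.before (S : Spl) (a : Dy) : Bool := S.trs.all fun t => t.1.le a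

/-- After the last knot the spline is its polynomial. -/
theorem Spl.poly_tail {n : ℕ} (S : Spl) {e : ℕ} (he : e ≠ 0) {a : Dy} (hbef : S.before a = true)
    {X : QP n} {x : ℕ → ℝ} (ha : a.val ≤ X.val x) :
    (S.poly e a X).val x = S.val e (X.val x) := by
  rw [Spl.poly, QP.val_horner, evalDy_addL, Spl.val, trList_val _ (fun t ht => ?_) he]
  simp only [Spl.before, List.all_eq_true] at hbef
  exact Or.inl ⟨hbef t ht, by linarith [Dy.le_spec (hbef t ht)]⟩

end Vale.Agent.P254.Uncond.Check
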