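import Vale.Agent.P254.Uncond.CertSound
import Vale.Agent.P254.Uncond.EulerBound
import Vale.Agent.P254.Uncond.Check.Spline
import Vale.Agent.P254.Uncond.Check.Exp

/-!
A kernel-checkable certificate for the one-variable inequalities, with splines in `s = √u`.
-/

open MeasureTheory Set Filter Topology

namespace Vale.Agent.P254.Uncond.Check

/-- One interval `[a, b)` of `s = √u`: the right end, the bounds for `exp` at `b ^ 2`, the line
below `u / (exp u - 1)`, the affine minorant in `u` and a subdivision tree. -/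
structure Cell where
  /-- right end -/
  b : Dy
  /-- bounds at the right end -/
  eb : ExpB
  /-- constant of the line -/
  l0 : Dy
  /-- slope of the line -/
  l1 : Dy
  /-- constant of the minorant -/
  m0 : Dy
  /-- slope of the minorant -/
  m1 : Dy
  /-- tree -/
  t : Tree

/-- A certificate for `OneDim (An / q) (Cn / q) (an / q)`. -/
structure OneCert where
  /-- common denominator -/
  q : ℕ
  /-- numerator of `A` -/
  An : ℕ
  /-- numerator of `C` -/
  Cn : ℤ
  /-- numerator of `a` -/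
  an : ℤ
  /-- the primitive of `W`, exponent three -/
  Q : Spl
  /-- first coefficient, exponent two -/
  β : Spl
  /-- second coefficient, exponent two -/
  γ : Spl
  /-- positive lower bound for the denominator -/
  ε : Dy
  /-- growth constant -/
  K : Dy
  /-- cells from zero on -/
  cells : List Cell
  /-- minorant after the last cell -/
  m0 : Dy
  /-- its slope -/
  m1 : Dy
  /-- tree for the last interval -/
  t : Tree

namespace OneCert

variable (D : OneCert)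

/-- The numerator of `ω`, times `1`. -/
noncomputable def den (s : ℝ) : ℝ :=
  2 * s ^ 2 * (D.Q.der 3).val 2 s - s * ((D.Q.der 3).der 2).val 1 s + (D.Q.der 3).val 2 s

/-- The inequality multiplied by `q s ^ 2 den`. -/
noncomputable def expr (m0 m1 s z r : ℝ) : ℝ :=
  (D.q : ℝ) * ((1 + D.β.val 2 s * z + 2 * D.γ.val 2 s * z ^ 2) *
      (D.den s * (1 - z) + s ^ 2 * D.den s * (r - 1))
    + D.den s * (s * ((D.β.der 2).val 1 s) / 2 - s ^ 2 * D.β.val 2 s) * z
    + D.den s * (s * ((D.γ.der 2).val 1 s) / 2 - s ^ 2 * D.γ.val 2 s) * z ^ 2)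
  - 4 * (D.An : ℝ) * (s * D.Q.val 3 s * z ^ 2)
  - (D.Cn : ℝ) * (s ^ 2 * D.den s * (r * (2 * s ^ 2 - 1) - r ^ 2 * s ^ 2))
  - (D.q : ℝ) * (s ^ 2 * D.den s * (m0 + m1 * s ^ 2))

/-- One half. -/
def half : Dy := ⟨1, 1⟩

lemma half_val : half.val = 1 / 2 := by norm_num [half, Dy.val]

/-- The denominator as a polynomial. -/
def denP {n : ℕ} (a : Dy) (X : QP n) : QP n :=
  (((X.pow 2).mul ((D.Q.der 3).poly 2 a X)).scale (Dy.int 2)).sub
    (X.mul (((D.Q.der 3).der 2).poly 1 a X)) |>.add ((D.Q.der 3).poly 2 a X)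

/-- The inequality as a polynomial. -/
def exprP {n : ℕ} (a : Dy) (X Z R : QP n) (m0 m1 : Dy) : QP n :=
  let N := D.denP a X
  let s2 := X.pow 2
  let s2N := s2.mul N
  let one := QP.con n (Dy.int 1)
  let β := D.β.poly 2 a X
  let γ := D.γ.poly 2 a X
  let db := (X.mul ((D.β.der 2).poly 1 a X)).scale half
  let dg := (X.mul ((D.γ.der 2).poly 1 a X)).scale half
  let Z2 := Z.pow 2
  let S := (one.add (β.mul Z)).add ((γ.mul Z2).scale (Dy.int 2))
  let first := (((S.mul ((N.mul (one.sub Z)).add (s2N.mul (R.sub one)))).add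
      ((N.mul (db.sub (s2.mul β))).mul Z)).add
      ((N.mul (dg.sub (s2.mul γ))).mul Z2)).scale (Dy.int D.q)
  ((first.sub (((X.mul (D.Q.poly 3 a X)).mul Z2).scale (Dy.int (4 * D.An : ℕ)))).sub
    ((s2N.mul ((R.mul ((s2.scale (Dy.int 2)).sub one)).sub ((R.pow 2).mul s2))).scale
      (Dy.int D.Cn))).sub
    ((s2N.mul ((QP.con n m0).add (s2.scale m1))).scale (Dy.int D.q))

/-- The point `a + (b - a) x₀`. -/
def xP (a b : Dy) : QP 3 := (QP.con 3 a).add ((QP.var 3 0).scale (b.add a.neg))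

/-- The point `1 - (1 - L) x₁`. -/
def zP (l0 l1 : Dy) (X : QP 3) : QP 3 :=
  (QP.con 3 (Dy.int 1)).sub
    (((QP.con 3 (Dy.int 1)).sub ((QP.con 3 l0).add ((X.pow 2).scale l1))).mul (QP.var 3 1))

/-- The line is below `u / (exp u - 1)` through the chord of the exponential. -/
def chordP (a b : Dy) (ea eb : ExpB) (l0 l1 : Dy) : QP 3 :=
  let X := xP a b
  let u := X.pow 2
  let A := a.mul a
  let w := (b.mul b).add A.neg
  (u.scale w).sub (((QP.con 3 l0).add (u.scale l1)).mul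
    ((QP.con 3 ((ea.hi.add (Dy.int (-1))).mul w)).add
      ((u.sub (QP.con 3 A)).scale (eb.hi.add ea.hi.neg))))

/-- The tests on one cell. -/
def cellOk (a : Dy) (ea : ExpB) (c : Cell) : Bool :=
  let X := xP a c.b
  decide (0 ≤ a.m) && decide (0 < (c.b.add a.neg).m) && c.eb.ok (c.b.mul c.b) &&
    D.Q.free a c.b && D.β.free a c.b && D.γ.free a c.b &&
    (((c.l0.le (Dy.int 1)) && (c.l1.le half.neg)) ||
      run .leaf 3 (chordP a c.b ea c.eb c.l0 c.l1).num) &&
    run .leaf 3 ((D.denP a X).sub (QP.con 3 D.ε)).num &&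
    run .leaf 3 ((D.Q.der 3).poly 2 a X).num &&
    run .leaf 3 (((((QP.con 3 (Dy.int 1)).add (X.pow 2))).scale D.K).sub (D.Q.poly 3 a X)).num &&
    run .leaf 3 (((X.mul (D.denP a X)).scale D.K).sub ((D.Q.poly 3 a X).scale (Dy.int 4))).num &&
    run .leaf 3 ((QP.con 3 D.K).sub (D.β.poly 2 a X)).num &&
    run .leaf 3 ((D.β.poly 2 a X).add (QP.con 3 D.K)).num &&
    run .leaf 3 ((QP.con 3 D.K).sub (D.γ.poly 2 a X)).num &&
    run .leaf 3 ((D.γ.poly 2 a X).add (QP.con 3 D.K)).num &&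
    run c.t 3 (D.exprP a X (zP c.l0 c.l1 X) (QP.var 3 2) c.m0 c.m1).num

/-- The tests after the last cell. -/
def tailOk (a : Dy) : Bool :=
  let X := (QP.con 3 a).add (QP.var 3 0)
  decide (0 ≤ a.m) && D.Q.before a && D.β.before a && D.γ.before a &&
    runTail .leaf 2 ((D.denP a X).sub (QP.con 3 D.ε)).num &&
    runTail .leaf 2 ((D.Q.der 3).poly 2 a X).num &&
    runTail .leaf 2 (((((QP.con 3 (Dy.int 1)).add (X.pow 2))).scale D.K).sub (D.Q.poly 3 a X)).num &&
    runTail .leaf 2 (((X.mul (D.denP a X)).scale D.K).sub ((D.Q.poly 3 a X).scale (Dy.int 4))).num &&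
    runTail .leaf 2 ((QP.con 3 D.K).sub (D.β.poly 2 a X)).num &&
    runTail .leaf 2 ((D.β.poly 2 a X).add (QP.con 3 D.K)).num &&
    runTail .leaf 2 ((QP.con 3 D.K).sub (D.γ.poly 2 a X)).num &&
    runTail .leaf 2 ((D.γ.poly 2 a X).add (QP.con 3 D.K)).num &&
    runTail D.t 2 (D.exprP a X (QP.var 3 1) (QP.var 3 2) D.m0 D.m1).num

/-- All cells. -/
def allOk : Dy → ExpB → List Cell → Bool
  | a, _, [] => D.tailOk a
  | a, ea, c :: r => D.cellOk a ea c && allOk c.b c.eb r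

/-- `F` in the primitive `-exp (-u) F` of the minorant. -/
def primAt (m0 m1 a : Dy) : Dy := (m0.add m1).add (m1.mul (a.mul a))

/-- The lower bound for the integral of the minorant. -/
def lowInt : Dy → ExpB → List Cell → Dy
  | a, ea, [] => ea.lowMul (primAt D.m0 D.m1 a)
  | a, ea, c :: r =>
    ((ea.lowMul (primAt c.m0 c.m1 a)).add (c.eb.lowMul (primAt c.m0 c.m1 c.b).neg)).add
      (lowInt c.b c.eb r)

/-- Bounds at zero. -/
def exp0 : ExpB := ⟨Dy.int 1, Dy.int 1, Dy.int 1, Dy.int 1⟩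

/-- The knots are nonnegative. -/
def knotsOk (S : Spl) : Bool := S.trs.all fun t => decide (0 ≤ t.1.m)

/-- The final comparison. -/
def finalOk : Bool :=
  decide (0 ≤ (((Dy.int (57718 * D.q + 100000 * D.An + 100000 * D.an)).add
    ((((Dy.int 0).add (D.β.base.headD (Dy.int 0))).add (D.γ.base.headD (Dy.int 0))).add
      (D.lowInt (Dy.int 0) exp0 D.cells) |>.mul (Dy.int (100000 * D.q))))).m)

/-- The whole test. -/
def ok : Bool :=
  decide (0 < D.q) && decide (0 < D.ε.m) && decide (0 ≤ D.K.m) &&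
    knotsOk D.Q && knotsOk D.β && knotsOk D.γ && decide ((D.Q.base.headD (Dy.int 0)).m = 0) &&
    exp0.ok (Dy.int 0) && D.finalOk && D.allOk (Dy.int 0) exp0 D.cells

/-- The minorant from a list of cells. -/
noncomputable def mint : List Cell → ℝ → ℝ
  | [], u => D.m0.val + D.m1.val * u
  | c :: r, u => if u < c.b.val ^ 2 then c.m0.val + c.m1.val * u else mint r u

/-- The certificate as data for the profile calculus. -/
noncomputable def cert : CertData where
  ω u := D.den (Real.sqrt u) / (4 * Real.sqrt u ^ 3)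
  W u := (D.Q.der 3).val 2 (Real.sqrt u) / (2 * Real.sqrt u)
  dW u := (Real.sqrt u * ((D.Q.der 3).der 2).val 1 (Real.sqrt u) - (D.Q.der 3).val 2 (Real.sqrt u)) /
    (4 * Real.sqrt u ^ 3)
  Γ u := D.Q.val 3 (Real.sqrt u)
  β u := D.β.val 2 (Real.sqrt u)
  dβ u := (D.β.der 2).val 1 (Real.sqrt u) / (2 * Real.sqrt u)
  γ u := D.γ.val 2 (Real.sqrt u)
  dγ u := (D.γ.der 2).val 1 (Real.sqrt u) / (2 * Real.sqrt u)
  m u := -Real.log u + D.mint D.cells u

lemma val_zero {S : Spl} (h : knotsOk S = true) (e : ℕ) (he : e ≠ 0) :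
    S.val e 0 = (S.base.headD (Dy.int 0)).val := by
  have ht : ∀ l : List (Dy × Dy), (∀ t ∈ l, 0 ≤ t.1.m) → trVal e l 0 = 0 := by
    intro l
    induction l with
    | nil => intro _; rfl
    | cons t r ih =>
      intro hl
      rw [trVal, ih fun x hx => hl x (List.mem_cons_of_mem _ hx), pp,
        max_eq_left (by linarith [Dy.val_nonneg (hl t (List.mem_cons_self ..))])]
      simp [he]
  simp only [knotsOk, List.all_eq_true, decide_eq_true_eq] at h
  rw [Spl.val, ht _ h, add_zero]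
  rcases S.base with _ | ⟨a, r⟩ <;> simp [evalDy]

variable {D}

/-- What the tests give at one point. -/
structure Facts (D : OneCert) (s : ℝ) : Prop where
  den_ge : D.ε.val ≤ D.den s
  dQ_nonneg : 0 ≤ (D.Q.der 3).val 2 s
  growth : D.Q.val 3 s ≤ D.K.val * (1 + s ^ 2)
  kappa : 4 * D.Q.val 3 s ≤ D.K.val * (s * D.den s)
  beta : |D.β.val 2 s| ≤ D.K.val
  gamma : |D.γ.val 2 s| ≤ D.K.val

lemma der_free {S : Spl} {a b : Dy} (e : ℕ) (h : S.free a b = true) :
    (S.der e).free a b = true := by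
  simpa [Spl.free, Spl.der, List.all_map, Function.comp_def] using h

lemma der_before {S : Spl} {a : Dy} (e : ℕ) (h : S.before a = true) :
    (S.der e).before a = true := by
  simpa [Spl.before, Spl.der, List.all_map, Function.comp_def] using h

lemma facts_of {a : Dy} {n : ℕ} {X : QP n} {x : ℕ → ℝ} {s : ℝ} (hX : X.val x = s)
    (hQ : ∀ e, e ≠ 0 → (D.Q.poly e a X).val x = D.Q.val e s)
    (hQ' : ((D.Q.der 3).poly 2 a X).val x = (D.Q.der 3).val 2 s)
    (hQ'' : (((D.Q.der 3).der 2).poly 1 a X).val x = ((D.Q.der 3).der 2).val 1 s)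
    (hβ : (D.β.poly 2 a X).val x = D.β.val 2 s) (hγ : (D.γ.poly 2 a X).val x = D.γ.val 2 s)
    (h1 : 0 ≤ ((D.denP a X).sub (QP.con n D.ε)).val x)
    (h2 : 0 ≤ ((D.Q.der 3).poly 2 a X).val x)
    (h3 : 0 ≤ (((((QP.con n (Dy.int 1)).add (X.pow 2))).scale D.K).sub (D.Q.poly 3 a X)).val x)
    (h4 : 0 ≤ (((X.mul (D.denP a X)).scale D.K).sub ((D.Q.poly 3 a X).scale (Dy.int 4))).val x)
    (h5 : 0 ≤ ((QP.con n D.K).sub (D.β.poly 2 a X)).val x)
    (h6 : 0 ≤ ((D.β.poly 2 a X).add (QP.con n D.K)).val x)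
    (h7 : 0 ≤ ((QP.con n D.K).sub (D.γ.poly 2 a X)).val x)
    (h8 : 0 ≤ ((D.γ.poly 2 a X).add (QP.con n D.K)).val x) :
    (D.denP a X).val x = D.den s ∧ Facts D s := by
  have hd : (D.denP a X).val x = D.den s := by
    simp only [denP, QP.val_add, QP.val_sub, QP.val_scale, QP.val_mul, QP.val_pow, Dy.val_int, hX,
      hQ', hQ'', den]
    push_cast
    ring
  simp only [QP.val_sub, QP.val_add, QP.val_scale, QP.val_mul, QP.val_pow, QP.val_con, Dy.val_int,
    hd, hX, hQ 3 (by norm_num), hQ', hβ, hγ] at h1 h2 h3 h4 h5 h6 h7 h8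
  push_cast at h3 h4
  refine ⟨hd, ?_, h2, ?_, ?_, abs_le.2 ⟨?_, ?_⟩, abs_le.2 ⟨?_, ?_⟩⟩ <;> linarith

lemma exprP_val {a : Dy} {n : ℕ} {X Z R : QP n} {x : ℕ → ℝ} {s z r : ℝ} (hX : X.val x = s)
    (hZ : Z.val x = z) (hR : R.val x = r) (hQ : (D.Q.poly 3 a X).val x = D.Q.val 3 s)
    (hd : (D.denP a X).val x = D.den s)
    (hβ : (D.β.poly 2 a X).val x = D.β.val 2 s) (hγ : (D.γ.poly 2 a X).val x = D.γ.val 2 s)
    (hβ' : ((D.β.der 2).poly 1 a X).val x = (D.β.der 2).val 1 s)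
    (hγ' : ((D.γ.der 2).poly 1 a X).val x = (D.γ.der 2).val 1 s) (m0 m1 : Dy) :
    (D.exprP a X Z R m0 m1).val x = D.expr m0.val m1.val s z r := by
  simp only [exprP, expr, QP.val_sub, QP.val_add, QP.val_scale, QP.val_mul, QP.val_pow, QP.val_con,
    Dy.val_int, half_val, hX, hZ, hR, hQ, hd, hβ, hγ, hβ', hγ', Int.cast_natCast, Nat.cast_mul]
  push_cast
  ring

lemma one_sub_half_le {u : ℝ} (hu : 0 ≤ u) : (1 - u / 2) * (Real.exp u - 1) ≤ u := by
  have hmono : MonotoneOn (fun v => v - (1 - v / 2) * (Real.exp v - 1)) (Ici 0) := by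
    refine monotoneOn_of_hasDerivWithinAt_nonneg (convex_Ici 0)
      (f' := fun v => 1 / 2 + Real.exp v * (v - 1) / 2) (by fun_prop) ?_ ?_
    · intro v _
      have h1 : HasDerivAt (fun v : ℝ => 1 - v / 2) (-(1 / 2)) v :=
        ((hasDerivAt_id v).div_const 2).const_sub 1
      refine (((hasDerivAt_id v).sub (h1.mul ((Real.hasDerivAt_exp v).sub_const 1))).congr_deriv
        ?_).hasDerivWithinAt
      ring
    · intro v hv
      have h1 := Real.add_one_le_exp (-v)
      have h2 := mul_le_mul_of_nonneg_left h1 (Real.exp_pos v).le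
      rw [← Real.exp_add, add_neg_cancel, Real.exp_zero] at h2
      linarith
  have := hmono (self_mem_Ici (a := 0)) (mem_Ici.2 hu) hu
  simp only [Real.exp_zero, sub_self, mul_zero, sub_zero] at this
  linarith

lemma z_lower {L u z : ℝ} (hu : 0 < u) (hz : 0 ≤ z) (h : u ≤ z * (Real.exp u - 1))
    (hL : 0 ≤ L → L * (Real.exp u - 1) ≤ u) : L ≤ z := by
  rcases le_or_gt L 0 with h0 | h0
  · linarith
  · have he : 0 < Real.exp u - 1 := by linarith [Real.add_one_le_exp u]
    exact le_of_mul_le_mul_right ((hL h0.le).trans h) he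

lemma chord {A B Ea Eb u : ℝ} (hA : Real.exp A ≤ Ea) (hB : Real.exp B ≤ Eb) (h1 : A ≤ u)
    (h2 : u ≤ B) : (B - A) * Real.exp u ≤ (B - u) * Ea + (u - A) * Eb := by
  rcases eq_or_lt_of_le (h1.trans h2) with h | h
  · subst h
    obtain rfl : u = A := le_antisymm h2 h1
    simp
  have hw : (0:ℝ) < B - A := sub_pos.2 h
  have hc := convexOn_exp.2 (mem_univ A) (mem_univ B)
    (div_nonneg (sub_nonneg.2 h2) hw.le) (div_nonneg (sub_nonneg.2 h1) hw.le)
    (by rw [← add_div, div_eq_one_iff_eq hw.ne']; ring)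
  simp only [smul_eq_mul] at hc
  rw [show (B - u) / (B - A) * A + (u - A) / (B - A) * B = u by field_simp; ring] at hc
  have := mul_le_mul_of_nonneg_left hc hw.le
  rw [mul_add, ← mul_assoc, ← mul_assoc, mul_div_cancel₀ _ hw.ne', mul_div_cancel₀ _ hw.ne'] at this
  linarith [mul_le_mul_of_nonneg_left hA (sub_nonneg.2 h2),
    mul_le_mul_of_nonneg_left hB (sub_nonneg.2 h1)]

lemma line_spec {a : Dy} {ea : ExpB} {c : Cell}
    (hl : (c.l0.le (Dy.int 1) = true ∧ c.l1.le half.neg = true) ∨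
      run .leaf 3 (chordP a c.b ea c.eb c.l0 c.l1).num = true)
    (ha0 : 0 ≤ a.m) (hea : ea.ok (a.mul a) = true) (heb : c.eb.ok (c.b.mul c.b) = true) {s : ℝ}
    (ha : a.val ≤ s) (hb : s ≤ c.b.val) (hwp : 0 < c.b.val - a.val) {x : ℕ → ℝ}
    (hv : (xP a c.b).val x = s) (hx : ∀ i, 0 ≤ x i ∧ x i ≤ 1)
    (hL : 0 ≤ c.l0.val + c.l1.val * s ^ 2) :
    (c.l0.val + c.l1.val * s ^ 2) * (Real.exp (s ^ 2) - 1) ≤ s ^ 2 := by
  have ha' : 0 ≤ a.val := Dy.val_nonneg ha0
  have he : (0:ℝ) ≤ Real.exp (s ^ 2) - 1 := by linarith [Real.add_one_le_exp (s ^ 2), sq_nonneg s]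
  rcases hl with ⟨hl0, hl1⟩ | hl
  · have hl0 := Dy.le_spec hl0
    have hl1 := Dy.le_spec hl1
    rw [Dy.val_int, Int.cast_one] at hl0
    rw [Dy.val_neg, half_val] at hl1
    have := mul_le_mul_of_nonneg_right hl1 (sq_nonneg s)
    refine le_trans (mul_le_mul_of_nonneg_right ?_ he) (one_sub_half_le (sq_nonneg s))
    linarith
  · have hch := QP.nonneg hl hx
    simp only [chordP, QP.val_sub, QP.val_add, QP.val_scale, QP.val_mul, QP.val_pow, QP.val_con,
      Dy.val_add, Dy.val_neg, Dy.val_mul, Dy.val_int, hv] at hch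
    push_cast at hch
    obtain ⟨-, hA, -, -⟩ := ExpB.ok_spec hea
    obtain ⟨-, hB, -, -⟩ := ExpB.ok_spec heb
    rw [Dy.val_mul] at hA hB
    have h1 : a.val * a.val ≤ s ^ 2 := by rw [sq]; exact mul_self_le_mul_self ha' ha
    have h2 : s ^ 2 ≤ c.b.val * c.b.val := by rw [sq]; exact mul_self_le_mul_self (ha'.trans ha) hb
    have hc := chord hA hB h1 h2
    have hw2 : 0 < c.b.val * c.b.val - a.val * a.val :=
      sub_pos.2 (mul_self_lt_mul_self ha' (by linarith))
    refine le_of_mul_le_mul_right ?_ hw2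
    have := mul_le_mul_of_nonneg_left hc hL
    linarith

/-- What the tests give on one cell. -/
theorem cell_spec {a : Dy} {ea : ExpB} {c : Cell} (h : D.cellOk a ea c = true)
    (hea : ea.ok (a.mul a) = true) {s : ℝ} (ha : a.val ≤ s) (hb : s ≤ c.b.val) :
    Facts D s ∧ ∀ z r : ℝ, 0 < s → 0 ≤ z → z ≤ 1 → s ^ 2 ≤ z * (Real.exp (s ^ 2) - 1) → 0 ≤ r →
      r ≤ 1 → 0 ≤ D.expr c.m0.val c.m1.val s z r := by
  simp only [cellOk, Bool.and_eq_true, Bool.or_eq_true, decide_eq_true_eq] at h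
  obtain ⟨⟨⟨⟨⟨⟨⟨⟨⟨⟨⟨⟨⟨⟨⟨ha0, hw⟩, heb⟩, fQ⟩, fβ⟩, fγ⟩, hl⟩, t1⟩, t2⟩, t3⟩, t4⟩, t5⟩, t6⟩, t7⟩, t8⟩,
    tmain⟩ := h
  have hwp : 0 < c.b.val - a.val := by
    have : (0:ℝ) < (c.b.add a.neg).val := div_pos (by exact_mod_cast hw) (by positivity)
    rw [Dy.val_add, Dy.val_neg] at this
    linarith
  have hX : ∀ x : ℕ → ℝ, x 0 = (s - a.val) / (c.b.val - a.val) → (xP a c.b).val x = s := by
    intro x hx
    simp only [xP, QP.val_add, QP.val_con, QP.val_scale, Dy.val_add, Dy.val_neg,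
      QP.val_var (show 0 < 3 by norm_num), hx]
    field_simp
    ring
  have ht : 0 ≤ (s - a.val) / (c.b.val - a.val) ∧ (s - a.val) / (c.b.val - a.val) ≤ 1 :=
    ⟨div_nonneg (by linarith) hwp.le, by rw [div_le_one hwp]; linarith⟩
  set x : ℕ → ℝ := fun i => if i = 0 then (s - a.val) / (c.b.val - a.val) else 0 with hxdef
  have hx : ∀ i, 0 ≤ x i ∧ x i ≤ 1 := fun i => by
    rcases eq_or_ne i 0 with rfl | hi
    · simpa [hxdef] using ht
    · simp [hxdef, hi]
  have hv : (xP a c.b).val x = s := hX x (by simp [hxdef])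
  have pv : ∀ (S : Spl) (e : ℕ) (y : ℕ → ℝ), S.free a c.b = true → e ≠ 0 →
      (xP a c.b).val y = s → (S.poly e a (xP a c.b)).val y = S.val e s := fun S e y hS he hy => by
    rw [Spl.poly_val S he hS (by rw [hy]; exact ha) (by rw [hy]; exact hb), hy]
  obtain ⟨-, hfacts⟩ := facts_of (D := D) hv (fun e he => pv D.Q e x fQ he hv)
    (pv _ 2 x (der_free 3 fQ) (by norm_num) hv)
    (pv _ 1 x (der_free 2 (der_free 3 fQ)) (by norm_num) hv)
    (pv D.β 2 x fβ (by norm_num) hv) (pv D.γ 2 x fγ (by norm_num) hv)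
    (QP.nonneg t1 hx) (QP.nonneg t2 hx) (QP.nonneg t3 hx) (QP.nonneg t4 hx) (QP.nonneg t5 hx)
    (QP.nonneg t6 hx) (QP.nonneg t7 hx) (QP.nonneg t8 hx)
  refine ⟨hfacts, fun z r hs0 hz0 hz1 hzu hr0 hr1 => ?_⟩
  set L := c.l0.val + c.l1.val * s ^ 2 with hLdef
  have hLz : L ≤ z := z_lower (by positivity) hz0 hzu fun hL =>
    line_spec hl ha0 hea heb ha hb hwp hv hx hL
  set t : ℝ := if L < 1 then (1 - z) / (1 - L) else 0 with htdef
  have ht1 : 0 ≤ t ∧ t ≤ 1 ∧ 1 - (1 - L) * t = z := by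
    rcases lt_or_ge L 1 with hL1 | hL1
    · rw [htdef, if_pos hL1]
      refine ⟨div_nonneg (by linarith) (by linarith), by rw [div_le_one (by linarith)]; linarith, ?_⟩
      rw [mul_div_cancel₀ _ (by linarith : (1:ℝ) - L ≠ 0)]
      ring
    · rw [htdef, if_neg (not_lt.2 hL1)]
      exact ⟨le_rfl, zero_le_one, by linarith⟩
  set y : ℕ → ℝ := fun i => if i = 0 then (s - a.val) / (c.b.val - a.val) else if i = 1 then t else r
    with hydef
  have hy : ∀ i, 0 ≤ y i ∧ y i ≤ 1 := fun i => by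
    simp only [hydef]
    split_ifs
    · exact ht
    · exact ⟨ht1.1, ht1.2.1⟩
    · exact ⟨hr0, hr1⟩
  have hv' : (xP a c.b).val y = s := hX y (by simp [hydef])
  have hd : (D.denP a (xP a c.b)).val y = D.den s := by
    simp only [denP, QP.val_add, QP.val_sub, QP.val_scale, QP.val_mul, QP.val_pow, Dy.val_int, hv',
      pv _ 2 y (der_free 3 fQ) (by norm_num) hv',
      pv _ 1 y (der_free 2 (der_free 3 fQ)) (by norm_num) hv', den]
    push_cast
    ring
  have hZ : (zP c.l0 c.l1 (xP a c.b)).val y = z := by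
    simp only [zP, QP.val_sub, QP.val_add, QP.val_mul, QP.val_scale, QP.val_pow, QP.val_con,
      QP.val_var (show 1 < 3 by norm_num), Dy.val_int, hv']
    push_cast
    rw [← hLdef, show y 1 = t by simp [hydef]]
    exact ht1.2.2
  have := QP.nonneg tmain hy
  rwa [exprP_val (D := D) hv' hZ
    (show (QP.var 3 2).val y = r by rw [QP.val_var (by norm_num : 2 < 3)]; simp [hydef]) (pv D.Q 3 y fQ (by norm_num) hv') hd
    (pv D.β 2 y fβ (by norm_num) hv') (pv D.γ 2 y fγ (by norm_num) hv')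
    (pv _ 1 y (der_free 2 fβ) (by norm_num) hv') (pv _ 1 y (der_free 2 fγ) (by norm_num) hv')] at this

/-- What the tests give after the last cell. -/
theorem tail_spec {a : Dy} (h : D.tailOk a = true) {s : ℝ} (ha : a.val ≤ s) :
    Facts D s ∧ ∀ z r : ℝ, 0 ≤ z → z ≤ 1 → 0 ≤ r → r ≤ 1 →
      0 ≤ D.expr D.m0.val D.m1.val s z r := by
  simp only [tailOk, Bool.and_eq_true, decide_eq_true_eq] at h
  obtain ⟨⟨⟨⟨⟨⟨⟨⟨⟨⟨⟨⟨-, fQ⟩, fβ⟩, fγ⟩, t1⟩, t2⟩, t3⟩, t4⟩, t5⟩, t6⟩, t7⟩, t8⟩, tmain⟩ := h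
  set X := (QP.con 3 a).add (QP.var 3 0)
  have hX : ∀ z r : ℝ, X.val (fun i => if i = 0 then s - a.val else if i = 1 then z else r) = s := by
    intro z r
    simp [X, QP.val_var]
  have pv : ∀ (S : Spl) (e : ℕ) (y : ℕ → ℝ), S.before a = true → e ≠ 0 → X.val y = s →
      (S.poly e a X).val y = S.val e s := fun S e y hS he hy => by
    rw [Spl.poly_tail S he hS (by rw [hy]; exact ha), hy]
  have main : ∀ z r : ℝ, 0 ≤ z → z ≤ 1 → 0 ≤ r → r ≤ 1 →
      Facts D s ∧ 0 ≤ D.expr D.m0.val D.m1.val s z r := by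
    intro z r hz0 hz1 hr0 hr1
    set y : ℕ → ℝ := fun i => if i = 0 then s - a.val else if i = 1 then z else r
    have h0 : 0 ≤ y 0 := by simp [y]; linarith
    have hy : ∀ i, 0 ≤ y (i + 1) ∧ y (i + 1) ≤ 1 := fun i => by
      rcases eq_or_ne i 0 with rfl | hi
      · simp [y, hz0, hz1]
      · simp [y, hi, hr0, hr1]
    have hv : X.val y = s := hX z r
    obtain ⟨hd, hf⟩ := facts_of (D := D) hv (fun e he => pv D.Q e y fQ he hv)
      (pv _ 2 y (der_before 3 fQ) (by norm_num) hv)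
      (pv _ 1 y (der_before 2 (der_before 3 fQ)) (by norm_num) hv)
      (pv D.β 2 y fβ (by norm_num) hv) (pv D.γ 2 y fγ (by norm_num) hv)
      (QP.nonneg_tail t1 h0 hy) (QP.nonneg_tail t2 h0 hy) (QP.nonneg_tail t3 h0 hy)
      (QP.nonneg_tail t4 h0 hy) (QP.nonneg_tail t5 h0 hy) (QP.nonneg_tail t6 h0 hy)
      (QP.nonneg_tail t7 h0 hy) (QP.nonneg_tail t8 h0 hy)
    refine ⟨hf, ?_⟩
    have := QP.nonneg_tail tmain h0 hy
    rwa [exprP_val (D := D) hv (show (QP.var 3 1).val y = z by simp [QP.val_var, y])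
      (show (QP.var 3 2).val y = r by simp [QP.val_var, y]) (pv D.Q 3 y fQ (by norm_num) hv) hd
      (pv D.β 2 y fβ (by norm_num) hv) (pv D.γ 2 y fγ (by norm_num) hv)
      (pv _ 1 y (der_before 2 fβ) (by norm_num) hv)
      (pv _ 1 y (der_before 2 fγ) (by norm_num) hv)] at this
  exact ⟨(main 0 0 le_rfl zero_le_one le_rfl zero_le_one).1,
    fun z r a b c d => (main z r a b c d).2⟩

theorem all_spec : ∀ (l : List Cell) (a : Dy) (ea : ExpB), D.allOk a ea l = true →
    ea.ok (a.mul a) = true → ∀ s : ℝ, a.val ≤ s → Facts D s ∧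
      ∀ z r : ℝ, 0 < s → 0 ≤ z → z ≤ 1 → s ^ 2 ≤ z * (Real.exp (s ^ 2) - 1) → 0 ≤ r → r ≤ 1 →
        0 ≤ D.expr (D.mint l (s ^ 2)) 0 s z r
  | [], a, _, h, _, s, hs => by
    obtain ⟨hf, hm⟩ := tail_spec h hs
    refine ⟨hf, fun z r _ hz0 hz1 _ hr0 hr1 => (hm z r hz0 hz1 hr0 hr1).trans_eq ?_⟩
    simp only [expr, mint]
    ring
  | c :: l, a, ea, h, hea, s, hs => by
    simp only [allOk, Bool.and_eq_true] at h
    obtain ⟨hc, hl⟩ := h
    have hce : c.eb.ok (c.b.mul c.b) = true := by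
      simp only [cellOk, Bool.and_eq_true] at hc
      exact hc.1.1.1.1.1.1.1.1.1.1.1.1.1.2
    rcases lt_or_ge s c.b.val with hb | hb
    · obtain ⟨hf, hm⟩ := cell_spec hc hea hs hb.le
      refine ⟨hf, fun z r hs0 hz0 hz1 hzu hr0 hr1 => ?_⟩
      rw [mint, if_pos (pow_lt_pow_left₀ hb hs0.le two_ne_zero)]
      refine (hm z r hs0 hz0 hz1 hzu hr0 hr1).trans_eq ?_
      simp only [expr]
      ring
    · obtain ⟨hf, hm⟩ := all_spec l c.b c.eb hl hce s hb
      refine ⟨hf, fun z r hs0 hz0 hz1 hzu hr0 hr1 => ?_⟩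
      have hb0 : 0 ≤ c.b.val := by
        simp only [cellOk, Bool.and_eq_true, decide_eq_true_eq] at hc
        have h0 := Dy.val_nonneg hc.1.1.1.1.1.1.1.1.1.1.1.1.1.1.1
        have h1 := Dy.val_nonneg (le_of_lt hc.1.1.1.1.1.1.1.1.1.1.1.1.1.1.2)
        rw [Dy.val_add, Dy.val_neg] at h1
        linarith
      rw [mint, if_neg (not_lt.2 (pow_le_pow_left₀ hb0 hb 2))]
      exact hm z r hs0 hz0 hz1 hzu hr0 hr1

lemma mint_right : ∀ (l : List Cell) (u : ℝ), ContinuousWithinAt (D.mint l) (Ici u) u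
  | [], u => (continuous_const.add (continuous_const.mul continuous_id) :
      Continuous fun v : ℝ => D.m0.val + D.m1.val * v).continuousWithinAt
  | c :: r, u => by
    rcases lt_or_ge u (c.b.val ^ 2) with h | h
    · have hev : ∀ᶠ x in 𝓝[Ici u] u, D.mint (c :: r) x = c.m0.val + c.m1.val * x := by
        filter_upwards [mem_nhdsWithin_of_mem_nhds (Iio_mem_nhds h)] with x hx
        rw [mint, if_pos (mem_Iio.1 hx)]
      refine ContinuousWithinAt.congr_of_eventuallyEq ?_ hev (by rw [mint, if_pos h])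
      exact (continuous_const.add (continuous_const.mul continuous_id)).continuousWithinAt
    · refine (mint_right r u).congr (fun x hx => ?_) (by rw [mint, if_neg (not_lt.2 h)])
      rw [mint, if_neg (not_lt.2 (h.trans hx))]

theorem int_spec : ∀ (l : List Cell) (a : Dy) (ea : ExpB), D.allOk a ea l = true →
    ea.ok (a.mul a) = true →
    IntegrableOn (fun u => Real.exp (-u) * D.mint l u) (Ici (a.val ^ 2)) ∧
      (D.lowInt a ea l).val ≤ ∫ u in Ici (a.val ^ 2), Real.exp (-u) * D.mint l u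
  | [], a, ea, _, hea => by
    obtain ⟨hi, hv⟩ := integral_exp_affine_Ici (sq_nonneg a.val) D.m0.val D.m1.val
    refine ⟨hi, ?_⟩
    simp only [mint] at hv ⊢
    rw [hv, lowInt]
    refine (ExpB.lowMul_spec hea _).trans_eq ?_
    simp only [primAt, Dy.val_add, Dy.val_mul]
    ring_nf
  | c :: l, a, ea, h, hea => by
    simp only [allOk, Bool.and_eq_true] at h
    obtain ⟨hc, hl⟩ := h
    simp only [cellOk, Bool.and_eq_true, decide_eq_true_eq] at hc
    obtain ⟨⟨⟨⟨⟨⟨⟨⟨⟨⟨⟨⟨⟨⟨⟨ha0, hw⟩, heb⟩, -⟩, -⟩, -⟩, -⟩, -⟩, -⟩, -⟩, -⟩, -⟩, -⟩, -⟩, -⟩, -⟩ := hc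
    have hle : a.val ^ 2 ≤ c.b.val ^ 2 := by
      have h1 := Dy.val_nonneg hw.le
      rw [Dy.val_add, Dy.val_neg] at h1
      exact pow_le_pow_left₀ (Dy.val_nonneg ha0) (by linarith) 2
    obtain ⟨hi, hv⟩ := integral_exp_affine hle c.m0.val c.m1.val
    obtain ⟨hj, hw'⟩ := int_spec l c.b c.eb hl heb
    have e1 : EqOn (fun u => Real.exp (-u) * D.mint (c :: l) u)
        (fun u => Real.exp (-u) * (c.m0.val + c.m1.val * u)) (Ico (a.val ^ 2) (c.b.val ^ 2)) :=
      fun u hu => by simp only [mint, if_pos hu.2]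
    have e2 : EqOn (fun u => Real.exp (-u) * D.mint (c :: l) u)
        (fun u => Real.exp (-u) * D.mint l u) (Ici (c.b.val ^ 2)) := fun u hu => by
      simp only [mint, if_neg (not_lt.2 (mem_Ici.1 hu))]
    have hi' := hi.congr_fun e1.symm measurableSet_Ico
    have hj' := hj.congr_fun e2.symm measurableSet_Ici
    rw [← Ico_union_Ici_eq_Ici hle]
    refine ⟨hi'.union hj', ?_⟩
    rw [setIntegral_union (show Disjoint (Ico (a.val ^ 2) (c.b.val ^ 2)) (Ici (c.b.val ^ 2)) from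
        Set.disjoint_left.2 fun _ h1 h2 => not_le.2 h1.2 (mem_Ici.1 h2))
      measurableSet_Ici hi' hj', setIntegral_congr_fun measurableSet_Ico e1,
      setIntegral_congr_fun measurableSet_Ici e2, hv, lowInt, Dy.val_add, Dy.val_add]
    refine add_le_add (le_trans (add_le_add (ExpB.lowMul_spec hea _) (ExpB.lowMul_spec heb _))
      (le_of_eq ?_)) hw'
    simp only [primAt, Dy.val_add, Dy.val_mul, Dy.val_neg]
    ring_nf

/-- The checker is sound. -/
theorem sound (h : D.ok = true) {A C a : ℝ} (hA : A * (D.q : ℝ) = D.An) (hC : C * (D.q : ℝ) = D.Cn)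
    (ha : a * (D.q : ℝ) = D.an) : OneDim A C a := by
  simp only [ok, Bool.and_eq_true, decide_eq_true_eq] at h
  obtain ⟨⟨⟨⟨⟨⟨⟨⟨⟨hq, hε⟩, hK⟩, kQ⟩, kβ⟩, kγ⟩, hQ0⟩, he0⟩, hfin⟩, hall⟩ := h
  have hqR : (0:ℝ) < D.q := by exact_mod_cast hq
  have hεR : 0 < D.ε.val := div_pos (by exact_mod_cast hε) (by positivity)
  have hKR : 0 ≤ D.K.val := Dy.val_nonneg hK
  have hz : (exp0).ok ((Dy.int 0).mul (Dy.int 0)) = true := he0
  have hsp := fun s (hs : 0 ≤ s) => all_spec D.cells (Dy.int 0) exp0 hall hz s (by simpa using hs)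
  have hF := fun u : ℝ => (hsp (Real.sqrt u) (Real.sqrt_nonneg u)).1
  obtain ⟨hmi, hlow⟩ := int_spec D.cells (Dy.int 0) exp0 hall hz
  simp only [Dy.val_int, Int.cast_zero, ne_eq, OfNat.ofNat_ne_zero, not_false_eq_true, zero_pow]
    at hmi hlow
  have hQ' := D.Q.hasDerivAt 1
  have hQ'' := (D.Q.der 3).hasDerivAt 0
  have hβ' := D.β.hasDerivAt 0
  have hγ' := D.γ.hasDerivAt 0
  have hs : ∀ u : ℝ, 0 < u → HasDerivAt Real.sqrt (1 / (2 * Real.sqrt u)) u := fun u hu =>
    Real.hasDerivAt_sqrt hu.ne'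
  have hq0 : ∀ u : ℝ, 0 < u → Real.sqrt u ≠ 0 := fun u hu => (Real.sqrt_pos.2 hu).ne'
  have hden : Continuous D.den := by
    have h1 := (D.Q.der 3).continuous 2
    have h2 := ((D.Q.der 3).der 2).continuous 1
    unfold den
    fun_prop
  have hcs : ContinuousOn Real.sqrt (Ioi 0) := Real.continuous_sqrt.continuousOn
  have hne : ∀ u ∈ Ioi (0:ℝ), (4:ℝ) * Real.sqrt u ^ 3 ≠ 0 := fun u hu =>
    mul_ne_zero (by norm_num) (pow_ne_zero 3 (hq0 u hu))
  have hcomp : ∀ {f : ℝ → ℝ}, Continuous f → ContinuousOn (fun u => f (Real.sqrt u)) (Ici 0) :=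
    fun hf => (hf.comp Real.continuous_sqrt).continuousOn
  have hκ : ∀ u : ℝ, 0 < u → D.cert.Γ u / (u ^ 2 * D.cert.ω u) =
      4 * D.Q.val 3 (Real.sqrt u) / (Real.sqrt u * D.den (Real.sqrt u)) := fun u hu => by
    simp only [cert]
    have h1 := hq0 u hu
    have h2 : D.den (Real.sqrt u) ≠ 0 := (hεR.trans_le (hF u).den_ge).ne'
    have h3 : u = Real.sqrt u ^ 2 := (Real.sq_sqrt hu.le).symm
    set s := Real.sqrt u
    rw [h3]
    field_simp
  have hreg : D.cert.Regular := by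
    refine ⟨fun u hu => ?_, ?_, fun u hu => ?_, fun u hu => ?_, ?_, fun u hu => ?_, fun u hu => ?_,
      hcomp (D.Q.continuous 3), ?_, ⟨D.K.val, fun u hu => ?_⟩, ⟨D.K.val, 0, fun u hu => ?_⟩,
      fun u hu => ?_, hcomp (D.β.continuous 2), ⟨D.K.val, fun u _ => (hF u).beta⟩,
      fun u hu => ?_, hcomp (D.γ.continuous 2), ⟨D.K.val, fun u _ => (hF u).gamma⟩,
      fun u hu => ?_, ?_⟩
    · exact div_pos (hεR.trans_le (hF u).den_ge) (by have := Real.sqrt_pos.2 hu; positivity)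
    · exact (hden.comp_continuousOn hcs).div (continuousOn_const.mul (hcs.pow 3)) hne
    · exact div_nonneg (hF u).dQ_nonneg (by positivity)
    · have h1 := ((hQ'' (Real.sqrt u)).comp u (hs u hu)).div ((hs u hu).const_mul 2)
        (mul_ne_zero two_ne_zero (hq0 u hu))
      refine h1.congr_deriv ?_
      simp only [cert, Function.comp_apply]
      have := hq0 u hu
      field_simp
      ring
    · exact ((hcs.mul (((D.Q.der 3).der 2).continuous 1 |>.comp_continuousOn hcs)).sub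
        ((D.Q.der 3).continuous 2 |>.comp_continuousOn hcs)).div
        (continuousOn_const.mul (hcs.pow 3)) hne
    · refine le_of_eq ?_
      simp only [cert, den]
      have := hq0 u hu
      field_simp
      ring
    · refine ((hQ' (Real.sqrt u)).comp u (hs u hu)).congr_deriv ?_
      simp only [cert]
      ring
    · show D.Q.val 3 (Real.sqrt 0) = 0
      rw [Real.sqrt_zero, val_zero kQ 3 (by norm_num), Dy.val, hQ0]
      simp
    · refine (hF u).growth.trans_eq ?_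
      rw [Real.sq_sqrt hu]
    · rw [hκ u hu, pow_zero, mul_one,
        div_le_iff₀ (mul_pos (Real.sqrt_pos.2 hu) (hεR.trans_le (hF u).den_ge))]
      exact (hF u).kappa
    · refine ((hβ' (Real.sqrt u)).comp u (hs u hu)).congr_deriv ?_
      simp only [cert]
      ring
    · refine ((hγ' (Real.sqrt u)).comp u (hs u hu)).congr_deriv ?_
      simp only [cert]
      ring
    · exact ((Real.continuousAt_log hu.ne').neg.continuousWithinAt).add (mint_right D.cells u)
    · refine (integral_exp_log.1.neg.add (hmi.mono_set Ioi_subset_Ici_self)).congr_fun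
        (fun u _ => ?_) measurableSet_Ioi
      simp only [cert, Pi.add_apply, Pi.neg_apply]
      ring
  have hval : D.cert.Valid A C := by
    intro u z r hu hz0 hz1 hzu hr0 hr1
    have hs0 := Real.sqrt_pos.2 hu
    have hu2 : Real.sqrt u ^ 2 = u := Real.sq_sqrt hu.le
    obtain ⟨hf, hm⟩ := hsp (Real.sqrt u) hs0.le
    have hm := hm z r hs0 hz0 hz1 (by rw [hu2]; exact hzu) hr0 hr1
    have hd : 0 < D.den (Real.sqrt u) := hεR.trans_le hf.den_ge
    have hψ : D.cert.psi A C u z r - D.cert.m u =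
        D.expr (D.mint D.cells (Real.sqrt u ^ 2)) 0 (Real.sqrt u) z r /
          ((D.q : ℝ) * (Real.sqrt u ^ 2 * D.den (Real.sqrt u))) := by
      simp only [CertData.psi, CertData.S, hκ u hu]
      simp only [cert, expr, ← hA, ← hC]
      set s := Real.sqrt u
      rw [← hu2]
      field_simp
      ring
    have := div_nonneg hm (by positivity : (0:ℝ) ≤ (D.q : ℝ) * (Real.sqrt u ^ 2 * D.den (Real.sqrt u)))
    linarith [hψ ▸ this]
  intro g R hg
  refine certSound D.cert A C a ?_ hreg hval ?_ hg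
  · exact nonneg_of_mul_nonneg_left (by rw [hA]; positivity) hqR
  · have hint : ∫ u in Ioi (0:ℝ), Real.exp (-u) * D.cert.m u =
        Real.eulerMascheroniConstant + ∫ u in Ici (0:ℝ), Real.exp (-u) * D.mint D.cells u := by
      rw [integral_Ici_eq_integral_Ioi, ← neg_neg Real.eulerMascheroniConstant,
        ← integral_exp_log.2, ← integral_neg]
      have hn : IntegrableOn (fun u => -(Real.exp (-u) * Real.log u)) (Ioi 0) :=
        integral_exp_log.1.neg
      rw [← integral_add hn (hmi.mono_set Ioi_subset_Ici_self)]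
      refine setIntegral_congr_fun measurableSet_Ioi fun u _ => ?_
      simp only [cert]
      ring
    simp only [finalOk, decide_eq_true_eq] at hfin
    have hfin := Dy.val_nonneg hfin
    simp only [Dy.val_add, Dy.val_mul, Dy.val_int] at hfin
    push_cast at hfin
    rw [hint]
    show -a ≤ A + D.β.val 2 (Real.sqrt 0) + D.γ.val 2 (Real.sqrt 0) + _
    rw [Real.sqrt_zero, val_zero kβ 2 (by norm_num), val_zero kγ 2 (by norm_num)]
    refine le_of_mul_le_mul_right ?_ hqR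
    have hg := mul_le_mul_of_nonneg_right euler_lower hqR.le
    have hl := mul_le_mul_of_nonneg_right hlow hqR.le
    linarith

end OneCert

end Vale.Agent.P254.Uncond.Check
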