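import Vale.Agent.P154.InvPoly

/-!
Polynomials with dyadic coefficients on the unit cube, with a kernel-checkable sign test.
-/

namespace Vale.Agent.P254.Uncond.Check

open Vale.Agent.P154.Bern

/-- A dyadic number `m / 2 ^ k`. -/
structure Dy where
  /-- numerator -/
  m : ℤ
  /-- exponent of the denominator -/
  k : ℕ

/-- The value of a dyadic number. -/
noncomputable def Dy.val (a : Dy) : ℝ := (a.m : ℝ) / 2 ^ a.k

/-- The sum. -/
def Dy.add (a b : Dy) : Dy :=
  ⟨Int.add (Int.mul a.m (Int.ofNat (Nat.pow 2 (Nat.sub b.k a.k))))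
    (Int.mul b.m (Int.ofNat (Nat.pow 2 (Nat.sub a.k b.k)))), Nat.max a.k b.k⟩

/-- The product. -/
def Dy.mul (a b : Dy) : Dy := ⟨Int.mul a.m b.m, a.k + b.k⟩

/-- The opposite. -/
def Dy.neg (a : Dy) : Dy := ⟨Int.neg a.m, a.k⟩

/-- An integer. -/
def Dy.int (z : ℤ) : Dy := ⟨z, 0⟩

/-- The comparison. -/
def Dy.le (a b : Dy) : Bool :=
  match (b.add a.neg).m with
  | .ofNat _ => true
  | .negSucc _ => false

lemma pow_shift (i j : ℕ) : ((2:ℝ) ^ (j - i)) * 2 ^ i = 2 ^ max i j := by
  rw [← pow_add]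
  congr 1
  omega

lemma scaled_add (x y : ℝ) (i j : ℕ) :
    (x * (2:ℝ) ^ (j - i) + y * (2:ℝ) ^ (i - j)) / 2 ^ max i j = x / 2 ^ i + y / 2 ^ j := by
  have hi := pow_shift i j
  have hj := pow_shift j i
  rw [max_comm] at hj
  have h2 : ∀ k : ℕ, (2:ℝ) ^ k ≠ 0 := fun k => pow_ne_zero k two_ne_zero
  rw [div_add_div _ _ (h2 i) (h2 j), div_eq_div_iff (h2 _) (mul_ne_zero (h2 i) (h2 j))]
  linear_combination (x * 2 ^ j) * hi + (y * 2 ^ i) * hj

lemma Dy.val_add (a b : Dy) : (a.add b).val = a.val + b.val := by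
  rw [Dy.val, Dy.val, Dy.val, Dy.add, ← scaled_add]
  simp only [Int.add_def, Int.mul_def, Int.ofNat_eq_natCast, Nat.pow_eq, Nat.sub_eq,
    show ∀ i j : ℕ, Nat.max i j = max i j from fun _ _ => rfl]
  push_cast
  ring

lemma Dy.val_mul (a b : Dy) : (a.mul b).val = a.val * b.val := by
  simp only [Dy.val, Dy.mul, Int.mul_def]
  push_cast
  rw [pow_add]
  ring

lemma Dy.val_neg (a : Dy) : a.neg.val = -a.val := by
  show ((-a.m : ℤ) : ℝ) / 2 ^ a.k = _
  simp only [Dy.val]
  push_cast
  ring

@[simp] lemma Dy.val_int (z : ℤ) : (Dy.int z).val = z := by simp [Dy.val, Dy.int]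

lemma Dy.val_nonneg {a : Dy} (h : 0 ≤ a.m) : 0 ≤ a.val :=
  div_nonneg (by exact_mod_cast h) (by positivity)

lemma Dy.le_spec {a b : Dy} (h : a.le b = true) : a.val ≤ b.val := by
  have h' : 0 ≤ (b.add a.neg).m := by
    unfold Dy.le at h
    split at h
    · rename_i k hk; rw [hk]; exact Int.natCast_nonneg k
    · exact absurd h Bool.false_ne_true
  have := Dy.val_nonneg h'
  rw [Dy.val_add, Dy.val_neg] at this
  linarith

/-- A polynomial in `n` variables with dyadic coefficients. -/
structure QP (n : ℕ) where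
  /-- numerator -/
  num : MP n
  /-- exponent of the denominator -/
  k : ℕ

variable {n : ℕ}

/-- The value at a point. -/
noncomputable def QP.val (p : QP n) (x : ℕ → ℝ) : ℝ := ev n p.num x / 2 ^ p.k

/-- An integer constant as a polynomial. -/
def constMP : (n : ℕ) → ℤ → MP n
  | 0, z => z
  | n + 1, z => [constMP n z]

/-- The variable `i`. -/
def varMP : (n : ℕ) → ℕ → MP n
  | 0, _ => (0 : ℤ)
  | n + 1, 0 => [zero n, constMP n 1]
  | n + 1, i + 1 => [varMP n i]

/-- A constant. -/
def QP.con (n : ℕ) (a : Dy) : QP n := ⟨constMP n a.m, a.k⟩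

/-- A variable. -/
def QP.var (n i : ℕ) : QP n := ⟨varMP n i, 0⟩

/-- The sum. -/
def QP.add (p q : QP n) : QP n :=
  ⟨Vale.Agent.P154.Bern.add n (Vale.Agent.P154.Bern.smul n ((2 ^ (q.k - p.k) : ℕ) : ℤ) p.num)
    (Vale.Agent.P154.Bern.smul n ((2 ^ (p.k - q.k) : ℕ) : ℤ) q.num), max p.k q.k⟩

/-- The product. -/
def QP.mul (p q : QP n) : QP n := ⟨Vale.Agent.P154.Bern.mul n p.num q.num, p.k + q.k⟩

/-- A constant multiple. -/
def QP.scale (a : Dy) (p : QP n) : QP n :=
  ⟨Vale.Agent.P154.Bern.smul n a.m p.num, a.k + p.k⟩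

/-- The difference. -/
def QP.sub (p q : QP n) : QP n := p.add (q.scale (Dy.int (-1)))

/-- Horner evaluation of a list of dyadic coefficients at a polynomial. -/
def QP.horner (x : QP n) : List Dy → QP n
  | [] => QP.con n (Dy.int 0)
  | a :: r => (QP.con n a).add (x.mul (QP.horner x r))

lemma ev_constMP : ∀ (n : ℕ) (z : ℤ) (x : ℕ → ℝ), ev n (constMP n z) x = z
  | 0, _, _ => rfl
  | n + 1, z, x => by simp [constMP, ev_succ_cons, ev_succ_nil, ev_constMP n z]

lemma ev_varMP : ∀ (n i : ℕ) (x : ℕ → ℝ), i < n → ev n (varMP n i) x = x i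
  | 0, i, _, h => absurd h (Nat.not_lt_zero i)
  | n + 1, 0, x, _ => by
    simp [varMP, ev_succ_cons, ev_succ_nil, ev_zero, ev_constMP]
  | n + 1, i + 1, x, h => by
    simp [varMP, ev_succ_cons, ev_succ_nil, ev_varMP n i _ (Nat.lt_of_succ_lt_succ h)]

@[simp] lemma QP.val_con (a : Dy) (x : ℕ → ℝ) : (QP.con n a).val x = a.val := by
  simp [QP.val, QP.con, ev_constMP, Dy.val]

lemma QP.val_var {i : ℕ} (h : i < n) (x : ℕ → ℝ) : (QP.var n i).val x = x i := by
  simp [QP.val, QP.var, ev_varMP n i x h]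

@[simp] lemma QP.val_add (p q : QP n) (x : ℕ → ℝ) : (p.add q).val x = p.val x + q.val x := by
  rw [QP.val, QP.val, QP.val, QP.add, ← scaled_add, ev_add, ev_smul, ev_smul]
  push_cast
  ring

@[simp] lemma QP.val_mul (p q : QP n) (x : ℕ → ℝ) : (p.mul q).val x = p.val x * q.val x := by
  simp only [QP.val, QP.mul, ev_mul, pow_add]
  ring

@[simp] lemma QP.val_scale (a : Dy) (p : QP n) (x : ℕ → ℝ) :
    (p.scale a).val x = a.val * p.val x := by
  simp only [QP.val, QP.scale, ev_smul, pow_add, Dy.val]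
  ring

@[simp] lemma QP.val_sub (p q : QP n) (x : ℕ → ℝ) : (p.sub q).val x = p.val x - q.val x := by
  simp [QP.sub, sub_eq_add_neg]

/-- Horner evaluation of a list of dyadic coefficients at a number. -/
noncomputable def evalDy : List Dy → ℝ → ℝ
  | [], _ => 0
  | a :: r, t => a.val + t * evalDy r t

lemma QP.val_horner (p : QP n) (x : ℕ → ℝ) : ∀ l : List Dy,
    (p.horner l).val x = evalDy l (p.val x)
  | [] => by simp [QP.horner, evalDy]
  | a :: r => by simp [QP.horner, evalDy, QP.val_horner p x r]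

/-- A subdivision tree. -/
inductive Tree where
  /-- no further subdivision -/
  | leaf
  /-- halving in the given variable -/
  | node (i : ℕ) (l r : Tree)

/-- The largest exponent in the variable `i`. -/
def degIn : (n : ℕ) → ℕ → MP n → ℕ
  | 0, _, _ => 0
  | _ + 1, 0, a => List.length a - 1
  | n + 1, i + 1, a => (List.map (degIn n i) a).foldr max 0

/-- The Bernstein test over a tree. -/
def run : Tree → (n : ℕ) → MP n → Bool
  | .leaf, n, a => nn n a
  | .node i l r, n, a =>
    force n a fun a => decide (i < n) && fits n i (degIn n i a) a &&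
      force n (half n i (degIn n i a) false a) (run l n) &&
      force n (half n i (degIn n i a) true a) (run r n)

theorem run_spec : ∀ (t : Tree) {n : ℕ} {a : MP n}, run t n a = true →
    ∀ x : ℕ → ℝ, (∀ i, 0 ≤ x i ∧ x i ≤ 1) → 0 ≤ ev n a x
  | .leaf, n, a, h, x, hx => ev_nonneg_of_nn n a h x hx
  | .node i l r, n, a, h, x, hx => by
    simp only [run, force_eq, Bool.and_eq_true, decide_eq_true_eq] at h
    obtain ⟨⟨⟨hi, hf⟩, hl⟩, hr⟩ := h
    by_cases hm : x i ≤ 1 / 2
    · have h1 := run_spec l hl (fun j => if j = i then 2 * x i else x j) fun j => by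
        by_cases hj : j = i
        · simp only [hj, if_true]; constructor <;> linarith [(hx i).1]
        · simp only [hj, if_false]; exact hx j
      rw [ev_half n i _ false a hf hi _ x (fun j hj => by simp [hj]) (by simp)] at h1
      exact nonneg_of_mul_nonneg_right h1 (by positivity)
    · have h1 := run_spec r hr (fun j => if j = i then 2 * x i - 1 else x j) fun j => by
        by_cases hj : j = i
        · simp only [hj, if_true]; constructor <;> linarith [(hx i).2, not_le.mp hm]
        · simp only [hj, if_false]; exact hx j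
      rw [ev_half n i _ true a hf hi _ x (fun j hj => by simp [hj]) (by simp)] at h1
      exact nonneg_of_mul_nonneg_right h1 (by positivity)

/-- Nonnegativity on the unit cube from the test. -/
theorem QP.nonneg {p : QP n} {t : Tree} (h : run t n p.num = true) {x : ℕ → ℝ}
    (hx : ∀ i, 0 ≤ x i ∧ x i ≤ 1) : 0 ≤ p.val x :=
  div_nonneg (run_spec t h x hx) (by positivity)

/-- All coefficients in the first variable pass the test: nonnegativity for nonnegative values. -/
def runTail (t : Tree) (n : ℕ) (a : MP (n + 1)) : Bool :=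
  force (n + 1) a fun a => List.all a (run t n)

theorem QP.nonneg_tail {p : QP (n + 1)} {t : Tree} (h : runTail t n p.num = true) {x : ℕ → ℝ}
    (h0 : 0 ≤ x 0) (hx : ∀ i, 0 ≤ x (i + 1) ∧ x (i + 1) ≤ 1) : 0 ≤ p.val x := by
  simp only [runTail, force_eq] at h
  refine div_nonneg ?_ (by positivity)
  suffices H : ∀ a : List (MP n), (∀ c ∈ a, run t n c = true) → 0 ≤ ev (n + 1) a x from H _ (List.all_eq_true.mp h)
  intro a
  induction a with
  | nil => intro _; simp [ev_succ_nil]
  | cons c r ih =>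
    intro hc
    rw [ev_succ_cons]
    exact add_nonneg (run_spec t (hc c (List.mem_cons_self ..)) _ hx)
      (mul_nonneg h0 (ih fun d hd => hc d (List.mem_cons_of_mem _ hd)))

end Vale.Agent.P254.Uncond.Check
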