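import Vale.Agent.P254.Uncond.Check.ReqData

/-!
Regularity of the certificate data from checks on the splines: vanishing at the origin and degree
after the last knot.
-/

open Real Set MeasureTheory

namespace Vale.Agent.P254.Uncond.Check

/-- All coefficients after the `k`-th vanish. -/
def zeroAfter : ℕ → List ℤ → Bool
  | 0, l => l.tail.all (fun a => a == 0)
  | _ + 1, [] => true
  | k + 1, _ :: r => zeroAfter k r

/-- After `T` the spline with exponent `e` is a polynomial of degree at most `k`. -/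
def Spl.tailDeg (S : Spl) (e k : ℕ) (T : Dy) : Bool :=
  decide (0 < T.m) && S.before T && zeroAfter k (S.poly e T (QP.var 1 0)).num

/-- The first `j` coefficients vanish and all knots are nonnegative. -/
def Spl.vanish (S : Spl) (j : ℕ) : Bool :=
  (S.base.take j).all (fun a => a.m == 0) && S.trs.all fun t => decide (0 ≤ t.1.m)

/-- The value of a list of integer coefficients. -/
noncomputable def evalZ : List ℤ → ℝ → ℝ
  | [], _ => 0
  | a :: r, t => a + t * evalZ r t

open Vale.Agent.P154.Bern in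
lemma ev_eq_evalZ (x : ℕ → ℝ) : ∀ l : List ℤ, ev 1 l x = evalZ l (x 0)
  | [] => rfl
  | a :: r => (congrArg (fun e => (a : ℝ) + x 0 * e) (ev_eq_evalZ x r) : _)

lemma evalZ_zero (t : ℝ) : ∀ r : List ℤ, r.all (fun a => a == 0) = true → evalZ r t = 0
  | [], _ => rfl
  | b :: r, h => by
    simp only [List.all_cons, Bool.and_eq_true, beq_iff_eq] at h
    simp [evalZ, h.1, evalZ_zero t r h.2]

lemma list_sum_abs_nonneg {α : Type} (f : α → ℝ) : ∀ l : List α, 0 ≤ (l.map fun a => |f a|).sum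
  | [] => le_rfl
  | a :: r => add_nonneg (abs_nonneg _) (list_sum_abs_nonneg f r)

lemma evalZ_bound {t : ℝ} (ht : 0 ≤ t) : ∀ (k : ℕ) (l : List ℤ), zeroAfter k l = true →
    |evalZ l t| ≤ (l.map fun a : ℤ => |(a : ℝ)|).sum * (1 + t) ^ k := by
  intro k
  induction k with
  | zero =>
    rintro (_ | ⟨a, r⟩) h
    · simp [evalZ]
    · rw [evalZ, evalZ_zero t r h, mul_zero, add_zero, pow_zero, mul_one, List.map_cons,
        List.sum_cons]
      exact le_add_of_nonneg_right (list_sum_abs_nonneg _ _)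
  | succ k ih =>
    rintro (_ | ⟨a, r⟩) h
    · simp [evalZ]
    · rw [evalZ, List.map_cons, List.sum_cons]
      refine (abs_add_le _ _).trans ?_
      rw [abs_mul, abs_of_nonneg ht, add_mul]
      refine add_le_add (le_mul_of_one_le_right (abs_nonneg _) (one_le_pow₀ (by linarith))) ?_
      calc t * |evalZ r t| ≤ (1 + t) * ((r.map fun a : ℤ => |(a : ℝ)|).sum * (1 + t) ^ k) :=
            mul_le_mul (by linarith) (ih r h) (abs_nonneg _) (by linarith)
        _ = _ := by ring

/-- Polynomial growth from the degree after the last knot. -/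
theorem Spl.growth (S : Spl) {e k : ℕ} (he : e ≠ 0) {T : Dy} (h : S.tailDeg e k T = true) :
    ∃ C, 0 ≤ C ∧ ∀ s, 0 ≤ s → |S.val e s| ≤ C * (1 + s) ^ k := by
  simp only [Spl.tailDeg, Bool.and_eq_true, decide_eq_true_eq] at h
  obtain ⟨⟨hT, hb⟩, hz⟩ := h
  obtain ⟨C₁, hC₁⟩ := (isCompact_Icc (a := (0:ℝ)) (b := T.val)).exists_bound_of_continuousOn
    (S.continuous e).continuousOn
  set p := S.poly e T (QP.var 1 0) with hp
  set C₂ := ((show List ℤ from p.num).map fun a : ℤ => |(a : ℝ)|).sum with hC₂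
  have hC₂0 : 0 ≤ C₂ := list_sum_abs_nonneg _ _
  refine ⟨max C₁ 0 + C₂ / 2 ^ p.k, by positivity, fun s hs => ?_⟩
  have h1 : (1:ℝ) ≤ (1 + s) ^ k := one_le_pow₀ (by linarith)
  rcases le_total s T.val with hsT | hsT
  · refine le_trans ?_ (le_mul_of_one_le_right (by positivity) h1)
    exact ((hC₁ s ⟨hs, hsT⟩).trans (le_max_left _ _)).trans
      (le_add_of_nonneg_right (by positivity))
  · have hb' := evalZ_bound hs k _ hz
    have e1 := S.poly_tail he hb (X := QP.var 1 0) (x := fun _ => s)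
      (by rw [QP.val_var Nat.one_pos]; exact hsT)
    rw [QP.val_var Nat.one_pos, ← hp] at e1
    rw [← e1, QP.val, show Vale.Agent.P154.Bern.ev 1 p.num (fun _ => s) = evalZ p.num s from
      ev_eq_evalZ (fun _ => s) p.num, abs_div, abs_of_nonneg (pow_nonneg two_pos.le p.k : (0:ℝ) ≤ 2 ^ p.k)]
    refine le_trans ?_ (mul_le_mul_of_nonneg_right (le_add_of_nonneg_left (le_max_right _ _))
      (by positivity))
    rw [div_mul_eq_mul_div]
    exact div_le_div_of_nonneg_right hb' (by positivity)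

lemma evalDy_vanish : ∀ (j : ℕ) (l : List Dy), (l.take j).all (fun a => a.m == 0) = true →
    ∀ s, evalDy l s = s ^ j * evalDy (l.drop j) s
  | 0, l, _, s => by simp
  | j + 1, [], _, s => by simp [evalDy]
  | j + 1, a :: r, h, s => by
    simp only [List.take_succ_cons, List.all_cons, Bool.and_eq_true, beq_iff_eq] at h
    rw [evalDy, evalDy_vanish j r h.2 s, List.drop_succ_cons, Dy.val, h.1]
    simp [pow_succ]
    ring

lemma trVal_bound (e : ℕ) {s : ℝ} (hs : 0 ≤ s) : ∀ l : List (Dy × Dy),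
    (∀ t ∈ l, 0 ≤ t.1.m) → |trVal e l s| ≤ (l.map fun t => |t.2.val|).sum * s ^ e
  | [], _ => by simp [trVal]
  | t :: r, h => by
    rw [trVal, List.map_cons, List.sum_cons, add_mul]
    refine (abs_add_le _ _).trans (add_le_add ?_
      (trVal_bound e hs r fun u hu => h u (List.mem_cons_of_mem _ hu)))
    rw [abs_mul, abs_pow, pp, abs_of_nonneg (le_max_left (0:ℝ) (s - t.1.val))]
    refine mul_le_mul_of_nonneg_left (pow_le_pow_left₀ (le_max_left _ _) (max_le hs ?_) e)
      (abs_nonneg _)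
    linarith [Dy.val_nonneg (h t (List.mem_cons_self ..))]

/-- Growth and order of vanishing at the origin. -/
theorem Spl.growth_vanish (S : Spl) {e k : ℕ} (he : e ≠ 0) (hke : k ≤ e) {T : Dy}
    (h : S.tailDeg e k T = true) (hv : S.vanish k = true) :
    ∃ C, 0 ≤ C ∧ ∀ s, 0 ≤ s → |S.val e s| ≤ C * s ^ k := by
  obtain ⟨C, hC0, hC⟩ := S.growth he h
  simp only [Spl.tailDeg, Bool.and_eq_true, decide_eq_true_eq] at h
  simp only [Spl.vanish, Bool.and_eq_true] at hv
  obtain ⟨hv1, hv2⟩ := hv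
  simp only [List.all_eq_true, decide_eq_true_eq] at hv2
  have hT : 0 < T.val := div_pos (Int.cast_pos.2 h.1.1) (by positivity)
  obtain ⟨B, hB⟩ := (isCompact_Icc (a := (0:ℝ)) (b := T.val)).exists_bound_of_continuousOn
    (continuous_evalDy (S.base.drop k)).continuousOn
  set A := (S.trs.map fun t => |t.2.val|).sum with hA
  have hA0 : 0 ≤ A := list_sum_abs_nonneg _ _
  refine ⟨max B 0 + A * T.val ^ (e - k) + C * (1 / T.val + 1) ^ k, by positivity, fun s hs => ?_⟩
  rcases le_total s T.val with hsT | hsT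
  · rw [Spl.val, evalDy_vanish k _ hv1 s]
    refine (abs_add_le _ _).trans (le_trans ?_ (mul_le_mul_of_nonneg_right
      (le_add_of_nonneg_right (by positivity)) (pow_nonneg hs k)))
    rw [abs_mul, abs_pow, abs_of_nonneg hs, add_mul, mul_comm (max B 0)]
    refine add_le_add (mul_le_mul_of_nonneg_left ((hB s ⟨hs, hsT⟩).trans (le_max_left _ _))
      (pow_nonneg hs k)) ((trVal_bound e hs _ hv2).trans ?_)
    rw [mul_assoc]
    refine mul_le_mul_of_nonneg_left ?_ hA0
    calc s ^ e = s ^ (e - k) * s ^ k := by rw [← pow_add, Nat.sub_add_cancel hke]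
      _ ≤ _ := by gcongr
  · refine (hC s hs).trans (le_trans ?_ (mul_le_mul_of_nonneg_right
      (le_add_of_nonneg_left (by positivity)) (pow_nonneg hs k)))
    rw [mul_assoc, ← mul_pow]
    refine mul_le_mul_of_nonneg_left (pow_le_pow_left₀ (by linarith) ?_ k) hC0
    have : 1 ≤ 1 / T.val * s := by rw [div_mul_eq_mul_div, le_div_iff₀ hT]; linarith
    linarith

/-- The checks on the splines. -/
def ReqSpl.regular (P : ReqSpl) (T : Dy) : Bool :=
  decide (0 < P.S₁.m) && decide (0 < P.S₀.m) && decide (0 < P.cd) &&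
    P.Q.tailDeg 3 2 T && P.Q.vanish 1 &&
    (P.Q.der 3).tailDeg 2 1 T && (P.Q.der 3).vanish 1 &&
    P.β.tailDeg 2 0 T && P.γ.tailDeg 2 0 T &&
    P.p.tailDeg 2 2 T && P.p.vanish 2 && P.q.tailDeg 2 2 T && P.q.vanish 2

/-- Regularity of the data from the checks and the properties of `m`. -/
theorem ReqSpl.regular_spec {P : ReqSpl} {T : Dy} (h : P.regular T = true) {m : ℝ → ℝ}
    (hm : ∀ u, 0 < u → ContinuousWithinAt m (Ici u) u)
    (hmi : IntegrableOn (fun u => exp (-u) * m u) (Ioi 0)) : (P.toData m).Regular := by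
  simp only [ReqSpl.regular, Bool.and_eq_true, decide_eq_true_eq] at h
  obtain ⟨⟨⟨⟨⟨⟨⟨⟨⟨⟨⟨⟨hS1, hS0⟩, -⟩, hQt⟩, hQv⟩, hDt⟩, hDv⟩, hβ⟩, hγ⟩, hpt⟩, hpv⟩, hqt⟩, hqv⟩ := h
  obtain ⟨CQ, -, hCQ⟩ := P.Q.growth (by norm_num) hQt
  obtain ⟨CD, hCD0, hCD⟩ := (P.Q.der 3).growth_vanish (by norm_num) (by norm_num) hDt hDv
  obtain ⟨Cb, -, hCb⟩ := P.β.growth (by norm_num) hβ
  obtain ⟨Cg, -, hCg⟩ := P.γ.growth (by norm_num) hγ
  obtain ⟨Cp, -, hCp⟩ := P.p.growth_vanish (by norm_num) le_rfl hpt hpv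
  obtain ⟨Cq, -, hCq⟩ := P.q.growth_vanish (by norm_num) le_rfl hqt hqv
  have hc : ∀ (S : Spl) (e : ℕ) (A : Set ℝ), ContinuousOn (fun u => S.val e √u) A :=
    fun S e A => ((S.continuous e).comp continuous_sqrt).continuousOn
  have hwb : ∀ u, 0 < u → |(P.Q.der 3).val 2 √u / (2 * √u)| ≤ CD := fun u hu => by
    have hs : 0 < √u := sqrt_pos.2 hu
    rw [abs_div, abs_of_pos (by positivity : 0 < 2 * √u), div_le_iff₀ (by positivity)]
    refine (hCD √u hs.le).trans ?_
    rw [pow_one]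
    nlinarith
  have hwc : ContinuousOn (fun u => (P.Q.der 3).val 2 √u / (2 * √u)) (Ioi 0) :=
    (hc _ _ _).div (by fun_prop) fun u hu => by
      have := sqrt_pos.2 (show 0 < u from hu); positivity
  constructor
  case u₁_pos => exact pow_pos (div_pos (Int.cast_pos.2 hS1) (by positivity)) 2
  case S₀_pos => exact div_pos (Int.cast_pos.2 hS0) (by positivity)
  case Γ_deriv => exact fun u hu => hasDerivAt_spl_sqrt P.Q 1 hu
  case w_cont => exact hwc
  case w_int =>
    refine Integrable.mono' ((integrableOn_exp_neg_Ioi 0).const_mul (CD ^ 2))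
      (((by fun_prop : Continuous fun u : ℝ => exp (-u)).continuousOn.mul
        (hwc.pow 2)).aestronglyMeasurable measurableSet_Ioi)
      ((ae_restrict_mem measurableSet_Ioi).mono fun u hu => ?_)
    rw [norm_mul, norm_of_nonneg (exp_pos _).le, norm_pow, mul_comm]
    exact mul_le_mul_of_nonneg_right (pow_le_pow_left₀ (abs_nonneg _) (hwb u hu) 2) (exp_pos _).le
  case Γ_cont => exact hc _ _ _
  case Γ_bound =>
    refine ⟨2 * CQ, fun u hu => (hCQ √u (sqrt_nonneg u)).trans ?_⟩
    have hCQ0 : 0 ≤ CQ := by simpa using (abs_nonneg _).trans (hCQ 0 le_rfl)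
    nlinarith [sq_sqrt hu, mul_nonneg hCQ0 (sq_nonneg (√u - 1))]
  case Γ_zero =>
    simp only [Spl.vanish, Bool.and_eq_true] at hQv
    show P.Q.val 3 √0 = 0
    have := trVal_bound 3 (le_refl (0:ℝ)) P.Q.trs (by simpa [List.all_eq_true] using hQv.2)
    rw [sqrt_zero, Spl.val, evalDy_vanish 1 _ hQv.1]
    simpa using this
  case β_deriv => exact fun u hu => hasDerivAt_spl_sqrt P.β 0 hu
  case β_cont => exact hc _ _ _
  case β_bound => exact ⟨Cb, fun u _ => (hCb √u (sqrt_nonneg u)).trans_eq (by simp)⟩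
  case γ_deriv => exact fun u hu => hasDerivAt_spl_sqrt P.γ 0 hu
  case γ_cont => exact hc _ _ _
  case γ_bound => exact ⟨Cg, fun u _ => (hCg √u (sqrt_nonneg u)).trans_eq (by simp)⟩
  case p_deriv => exact fun u hu => hasDerivAt_spl_sqrt P.p 0 hu
  case p_cont => exact hc _ _ _
  case p_bound =>
    exact ⟨Cp, fun u hu => (hCp √u (sqrt_nonneg u)).trans_eq (by rw [sq_sqrt hu])⟩
  case q_deriv => exact fun u hu => hasDerivAt_spl_sqrt P.q 0 hu
  case q_cont => exact hc _ _ _
  case q_bound =>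
    exact ⟨Cq, fun u hu => (hCq √u (sqrt_nonneg u)).trans_eq (by rw [sq_sqrt hu])⟩
  case m_right => exact hm
  case m_int => exact hmi

end Vale.Agent.P254.Uncond.Check
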