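import Vale.Agent.P254.Uncond.Check.ReqCell
import Vale.Agent.P254.Uncond.Check.ReqReg
import Vale.Agent.P254.Uncond.ReqSound

/-!
A kernel-checkable certificate for the requirement: the interval next to the origin, the intervals
of `ReqCell` and the last unbounded interval.
-/

open Real Set MeasureTheory

namespace Vale.Agent.P254.Uncond.Check

open OneCert (xP zP chordP exp0)

/-- The interval `[0, b]` next to the origin, where `q` vanishes: `m = λ log u + μ₀ + μ₁ u`. -/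
structure RFirst where
  /-- right end -/
  b : Dy
  /-- bounds at `b ^ 2` -/
  eb : ExpB
  /-- line below `z` -/
  lz : Dy × Dy
  /-- coefficient of `log u` -/
  lam : Dy
  /-- affine part of the minorant -/
  mu : Dy × Dy
  /-- at least `log u₁` -/
  L₁ : Dy
  /-- bounds of `exp L₁` -/
  eL₁ : SExp
  /-- at most `log (b ^ 2)` -/
  Lb : Dy
  /-- bounds of `exp Lb` -/
  eLb : SExp
  /-- at least `K / (1 - exp (-u₁)) ^ 2` -/
  Kc : Dy
  /-- tree for `r = 0` -/
  t₀ : Tree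
  /-- tree for `r = 1` -/
  t₁ : Tree

/-- The interval after the last cell, where `m` is quadratic. -/
structure RTail where
  /-- lower bound of `y` -/
  Ylo : Dy
  /-- its bounds -/
  eY : SExp
  /-- at least `log (U / u₁)` at the left end `U` -/
  LU : Dy
  /-- its bounds -/
  eLU : SExp
  /-- at least `1 / U` -/
  invU : Dy
  /-- at least `K / u₁ ^ 2` -/
  Kt : Dy
  /-- coefficients of the minorant -/
  m₀ : Dy
  /-- coefficient of `u` -/
  m₁ : Dy
  /-- coefficient of `u ^ 2` -/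
  m₂ : Dy
  /-- tree for `r = 0` -/
  t₀ : Tree
  /-- tree for `r = 1` -/
  t₁ : Tree

/-- A certificate for `Requirement (cn / cd) (en / ed)`. -/
structure ReqCert where
  /-- splines and constants -/
  P : ReqSpl
  /-- numerator of `e` -/
  en : ℤ
  /-- denominator of `e` -/
  ed : ℕ
  /-- bounds at `u₁` -/
  e₁ : ExpB
  /-- at least `log S₀` -/
  LS : Dy
  /-- its bounds -/
  eLS : SExp
  /-- the first interval -/
  first : RFirst
  /-- the intervals -/
  cells : List RCell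
  /-- the last interval -/
  last : RTail

namespace ReqCert

variable (D : ReqCert)

/-- `cd u (1 + dp - p)` on the first interval. -/
def aP (X : QP 3) : QP 3 := ((X.pow 2).add (dPoly D.P.p (Dy.int 0) X)).scale (Dy.int D.P.cd)

/-- The inequality on the first interval. -/
def firstP (rr : Dy) : QP 3 :=
  let F := D.first
  let X := xP (Dy.int 0) F.b
  let u := X.pow 2
  ((bodyPoly D.P (Dy.int 0) X (zP F.lz.1 F.lz.2 X) (QP.con 3 F.L₁.neg) rr).sub
    ((u.mul (u.mul u)).scale ((Dy.int D.P.cd).mul F.Kc))).sub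
    ((u.mul ((QP.con 3 F.mu.1).add (u.scale F.mu.2))).scale (Dy.int D.P.cd))

/-- The tests on the first interval. -/
def firstOk : Bool :=
  let F := D.first
  let X := xP (Dy.int 0) F.b
  decide (0 < F.b.m) && F.b.le (Dy.int 1) && F.b.le D.P.S₁ && F.eb.ok (F.b.mul F.b) &&
    D.P.free (Dy.int 0) F.b && D.P.q.base.all (fun a => a.m == 0) &&
    D.P.q.trs.all (fun t => F.b.le t.1) &&
    ((F.lz.1.le (Dy.int 1) && F.lz.2.le OneCert.half.neg) ||
      run .leaf 3 (chordP (Dy.int 0) F.b exp0 F.eb F.lz.1 F.lz.2).num) &&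
    decide (0 ≤ F.lam.m) && F.eL₁.ok F.L₁ && (D.P.S₁.mul D.P.S₁).le F.eL₁.lo &&
    F.eLb.ok F.Lb && F.eLb.hi.le (F.b.mul F.b) &&
    decide (0 < (RCell.cLo D.e₁).m) &&
    D.P.K.le (F.Kc.mul ((RCell.cLo D.e₁).mul (RCell.cLo D.e₁))) &&
    run .leaf 3 (D.aP X).num &&
    run .leaf 3 (((X.pow 2).scale ((Dy.int D.P.cd).mul F.lam)).sub (D.aP X)).num &&
    run F.t₀ 3 (D.firstP (Dy.int 0)).num && run F.t₁ 3 (D.firstP (Dy.int 1)).num

/-- The inequality on the last interval, from `a` on. -/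
def tailP (a : Dy) (rr : Dy) : QP 3 :=
  let T := D.last
  let X := (QP.con 3 a).add (QP.var 3 0)
  let u := X.pow 2
  let hiY := (QP.con 3 (T.LU.add ((T.invU.mul (a.mul a)).neg))).add (u.scale T.invU)
  let Y := (QP.con 3 T.Ylo).add ((QP.var 3 2).mul (hiY.sub (QP.con 3 T.Ylo)))
  ((bodyPoly D.P a X (QP.var 3 1) Y rr).sub
    ((u.mul (u.mul u)).scale ((Dy.int D.P.cd).mul T.Kt))).sub
    ((u.mul (((QP.con 3 T.m₀).add (u.scale T.m₁)).add ((u.mul u).scale T.m₂))).scale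
      (Dy.int D.P.cd))

/-- The tests on the last interval. -/
def tailOk (a : Dy) (ea : ExpB) : Bool :=
  let T := D.last
  let U := a.mul a
  let u₁ := D.P.S₁.mul D.P.S₁
  decide (0 < a.m) && D.P.S₁.le a && D.P.before a &&
    T.eY.ok T.Ylo && (T.eY.hi.mul (RCell.cHi D.e₁)).le ((Dy.int 1).add ea.nhi.neg) &&
    T.eLU.ok T.LU && U.le (T.eLU.lo.mul u₁) && (Dy.int 1).le (T.invU.mul U) &&
    D.P.K.le (T.Kt.mul (u₁.mul u₁)) &&
    runTail T.t₀ 2 (D.tailP a (Dy.int 0)).num && runTail T.t₁ 2 (D.tailP a (Dy.int 1)).num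

/-- All intervals after the first. -/
def allOk : Dy → ExpB → List RCell → Bool
  | a, ea, [] => D.tailOk a ea
  | a, ea, c :: r => RCell.ok D.P D.e₁ a ea c && allOk c.b c.eb r

/-- The integral of the minorant from `a` on, from below. -/
def lowInt : Dy → ExpB → List RCell → Dy
  | a, ea, [] =>
    let U := a.mul a
    ea.lowMul ((D.last.m₀.add (D.last.m₁.mul ((Dy.int 1).add U))).add
      (D.last.m₂.mul (((U.mul U).add ((Dy.int 2).mul U)).add (Dy.int 2))))
  | a, ea, c :: r =>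
    ((ea.lowMul (OneCert.primAt c.mu.1 c.mu.2 a)).add
      (c.eb.lowMul (OneCert.primAt c.mu.1 c.mu.2 c.b).neg)).add (lowInt c.b c.eb r)

/-- The lower bound of the whole integral. -/
def total : Dy :=
  let F := D.first
  let B := F.b.mul F.b
  ((F.lam.mul (B.mul (F.Lb.add (Dy.int (-1))))).add
    ((exp0.lowMul (OneCert.primAt F.mu.1 F.mu.2 (Dy.int 0))).add
      (F.eb.lowMul (OneCert.primAt F.mu.1 F.mu.2 F.b).neg))).add (D.lowInt F.b F.eb D.cells)

/-- The final comparison. -/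
def finalOk : Bool :=
  let big := ((((D.P.β.base.headD (Dy.int 0)).add (D.P.γ.base.headD (Dy.int 0))).add ⟨1, 1⟩).add
    ((D.LS.mul ⟨1, 1⟩).neg)).add D.total
  let rhs := (Dy.int ((D.P.cd * 69314718 : ℕ) - (D.P.cn * 100000000 : ℕ))).add
    (big.mul (Dy.int (D.P.cd * 100000000 : ℕ)))
  (Dy.int (D.en * (D.P.cd * 100000000 : ℕ))).le (rhs.mul (Dy.int D.ed))

/-- The whole test. -/
def ok : Bool :=
  decide (0 < D.ed) && decide (0 < D.P.S₀.m) && decide (0 < D.P.S₁.m) &&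
    D.P.regular ((D.cells.getLast?.map RCell.b).getD D.first.b) &&
    (Dy.int 1).le (D.P.K.mul ((Dy.int 2).mul D.P.S₀)) &&
    D.e₁.ok (D.P.S₁.mul D.P.S₁) && D.eLS.ok D.LS && D.P.S₀.le D.eLS.lo &&
    OneCert.knotsOk D.P.β && OneCert.knotsOk D.P.γ && exp0.ok (Dy.int 0) &&
    D.firstOk && D.allOk D.first.b D.first.eb D.cells && D.finalOk

/-- The minorant after the first interval. -/
noncomputable def mrest : List RCell → ℝ → ℝ
  | [], u => D.last.m₀.val + D.last.m₁.val * u + D.last.m₂.val * u ^ 2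
  | c :: r, u => if u < c.b.val ^ 2 then c.mu.1.val + c.mu.2.val * u else mrest r u

/-- The minorant. -/
noncomputable def mfun (u : ℝ) : ℝ :=
  if u < D.first.b.val ^ 2 then
    D.first.lam.val * log u + (D.first.mu.1.val + D.first.mu.2.val * u)
  else D.mrest D.cells u

variable {D}

lemma mfun_lt {u : ℝ} (h : u < D.first.b.val ^ 2) : D.mfun u =
    D.first.lam.val * log u + (D.first.mu.1.val + D.first.mu.2.val * u) := if_pos h

lemma mfun_ge {u : ℝ} (h : D.first.b.val ^ 2 ≤ u) : D.mfun u = D.mrest D.cells u :=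
  if_neg (not_lt.2 h)

lemma val_pos {a : Dy} (h : 0 < a.m) : 0 < a.val := div_pos (Int.cast_pos.2 h) (by positivity)

lemma cLo_le (he1 : D.e₁.ok (D.P.S₁.mul D.P.S₁) = true) :
    (RCell.cLo D.e₁).val ≤ 1 - exp (-(D.P.S₁.val ^ 2)) ∧
      1 - exp (-(D.P.S₁.val ^ 2)) ≤ (RCell.cHi D.e₁).val := by
  obtain ⟨-, -, h1, h2⟩ := ExpB.ok_spec he1
  simp only [RCell.cLo, RCell.cHi, Dy.val_add, Dy.val_neg, Dy.val_int, Dy.val_mul, Int.cast_one,
    ← sq] at *
  constructor <;> linarith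

/-- The inequality on the first interval. -/
theorem first_spec (h : D.firstOk = true) (he1 : D.e₁.ok (D.P.S₁.mul D.P.S₁) = true)
    (hS₀ : 0 < D.P.S₀.val) (hK : 1 ≤ D.P.K.val * (2 * D.P.S₀.val)) (hcd : D.P.cd ≠ 0)
    (he0 : exp0.ok (Dy.int 0) = true) (m : ℝ → ℝ) {u z r y : ℝ} (hu : 0 < u)
    (hub : u < D.first.b.val ^ 2) (hz0 : 0 ≤ z) (hz1 : z ≤ 1) (hzu : u ≤ z * (exp u - 1))
    (hr0 : 0 ≤ r) (hr1 : r ≤ 1)
    (hy0 : min (log (u / D.P.S₁.val ^ 2))
      (log ((1 - exp (-u)) / (1 - exp (-(D.P.S₁.val ^ 2))))) ≤ y)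
    (hy1 : y ≤ max (log (u / D.P.S₁.val ^ 2))
      (log ((1 - exp (-u)) / (1 - exp (-(D.P.S₁.val ^ 2)))))) :
    D.first.lam.val * log u + (D.first.mu.1.val + D.first.mu.2.val * u) ≤
      (D.P.toData m).psi (D.P.cn / D.P.cd) u z r y := by
  simp only [firstOk, Bool.and_eq_true, Bool.or_eq_true, decide_eq_true_eq] at h
  obtain ⟨⟨⟨⟨⟨⟨⟨⟨⟨⟨⟨⟨⟨⟨⟨⟨⟨⟨hb0, hb1⟩, hbS⟩, heb⟩, hfree⟩, hqb⟩, hqt⟩, hl⟩, hlam⟩, heL⟩, hL1⟩,
    -⟩, -⟩, hcl⟩, hKc⟩, hA0⟩, hA1⟩, ht0⟩, ht1⟩ := h
  set b := D.first.b.val with hb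
  have hbp : 0 < b := val_pos hb0
  have hb1 : b ≤ 1 := by simpa using Dy.le_spec hb1
  have hbS := Dy.le_spec hbS
  have hS₁ : 0 < D.P.S₁.val := lt_of_lt_of_le hbp hbS
  have hlam := Dy.val_nonneg hlam
  have hcl := val_pos hcl
  obtain ⟨heL, -⟩ := SExp.ok_spec heL
  have hL1 := (Dy.le_spec hL1).trans heL
  have hKc := Dy.le_spec hKc
  simp only [Dy.val_mul, ← sq] at hL1 hKc
  obtain ⟨hCl, -⟩ := cLo_le he1
  set Cl := (RCell.cLo D.e₁).val
  obtain ⟨s, hs, rfl⟩ : ∃ s, 0 < s ∧ u = s ^ 2 := ⟨√u, sqrt_pos.2 hu, (sq_sqrt hu.le).symm⟩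
  have hsb : s < b := lt_of_pow_lt_pow_left₀ 2 hbp.le hub
  have hsq : √(s ^ 2) = s := sqrt_sq hs.le
  set σ := s / b with hσdef
  have hσ : 0 ≤ σ ∧ σ ≤ 1 := ⟨by positivity, (div_le_one hbp).2 hsb.le⟩
  have hX : ∀ x : ℕ → ℝ, x 0 = σ → (xP (Dy.int 0) D.first.b).val x = s := fun x hx => by
    simp only [xP, QP.val_add, QP.val_con, QP.val_scale, Dy.val_add, Dy.val_neg, Dy.val_int,
      QP.val_var (show 0 < 3 by norm_num), hx, hσdef, ← hb]
    push_cast
    field_simp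
    ring
  set x₀ : ℕ → ℝ := fun i => if i = 0 then σ else 0
  have hx₀ : ∀ i, 0 ≤ x₀ i ∧ x₀ i ≤ 1 := fun i => by
    simp only [x₀]; split_ifs
    · exact hσ
    · exact ⟨le_rfl, zero_le_one⟩
  have h0v : (Dy.int 0).val = 0 := by simp
  have hL : D.first.lz.1.val + D.first.lz.2.val * s ^ 2 ≤ z :=
    OneCert.z_lower hu hz0 hzu fun hL =>
    OneCert.line_spec (a := Dy.int 0) (ea := exp0)
      (c := ⟨D.first.b, D.first.eb, D.first.lz.1, D.first.lz.2, D.first.mu.1, D.first.mu.2, .leaf⟩)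
      hl le_rfl he0 heb (by rw [h0v]; exact hs.le) hsb.le (by rw [h0v, sub_zero]; exact hbp)
      (hX x₀ (by simp [x₀])) hx₀ hL
  set L := D.first.lz.1.val + D.first.lz.2.val * s ^ 2 with hLdef
  obtain ⟨ζ, hζ, hzζ⟩ : ∃ ζ, ζ ∈ Icc (0:ℝ) 1 ∧ 1 - (1 - L) * ζ = z := by
    rcases lt_or_ge L 1 with hL1' | hL1'
    · refine ⟨(1 - z) / (1 - L), ⟨div_nonneg (by linarith) (by linarith),
        (div_le_one (by linarith)).2 (by linarith)⟩, ?_⟩
      rw [mul_div_cancel₀ _ (by linarith : (1:ℝ) - L ≠ 0)]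
      ring
    · exact ⟨0, ⟨le_rfl, zero_le_one⟩, by linarith⟩
  set x : ℕ → ℝ := fun i => if i = 0 then σ else ζ
  have hx : ∀ i, 0 ≤ x i ∧ x i ≤ 1 := fun i => by
    simp only [x]; split_ifs
    · exact hσ
    · exact hζ
  have hv : (xP (Dy.int 0) D.first.b).val x = s := hX x (by simp [x])
  have hpoly := D.P.polyAt hfree (s := xP (Dy.int 0) D.first.b) (x := x)
    (by rw [hv, h0v]; exact hs.le) (by rw [hv]; exact hsb.le)
  -- `q` vanishes here
  have hq0 : D.P.q.val 2 s = 0 ∧ (D.P.q.der 2).val 1 s = 0 := by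
    simp only [List.all_eq_true, beq_iff_eq] at hqb hqt
    have he : ∀ (l : List Dy), (∀ a ∈ l, a.m = 0) → evalDy l s = 0 := by
      intro l
      induction l with
      | nil => intro _; rfl
      | cons a r ih =>
        intro hl'
        simp [evalDy, Dy.val, hl' a (List.mem_cons_self ..),
          ih fun c hc => hl' c (List.mem_cons_of_mem _ hc)]
    have ht : ∀ (e : ℕ) (l : List (Dy × Dy)), e ≠ 0 → (∀ t ∈ l, s ≤ t.1.val) →
        trVal e l s = 0 := by
      intro e l he'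
      induction l with
      | nil => intro _; rfl
      | cons t r ih =>
        intro hl'
        rw [trVal, ih fun c hc => hl' c (List.mem_cons_of_mem _ hc), pp,
          max_eq_left (by linarith [hl' t (List.mem_cons_self ..)]), zero_pow he']
        simp
    have hk : ∀ t ∈ D.P.q.trs, s ≤ t.1.val := fun t ht' =>
      hsb.le.trans (Dy.le_spec (hqt t ht'))
    refine ⟨by rw [Spl.val, he _ hqb, ht 2 _ two_ne_zero hk, add_zero], ?_⟩
    have hd : ∀ a ∈ (D.P.q.der 2).base, a.m = 0 := by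
      intro a ha
      have hz : ∀ (l : List Dy) (j : ℕ), (∀ c ∈ l, c.m = 0) → ∀ c ∈ dList j l, c.m = 0 := by
        intro l
        induction l with
        | nil => intro _ _ c hc; simp [dList] at hc
        | cons d r ih =>
          intro j hl' c hc
          simp only [dList, List.mem_cons] at hc
          rcases hc with rfl | hc
          · simp [Dy.mul, hl' d (List.mem_cons_self ..)]
          · exact ih (j + 1) (fun e he'' => hl' e (List.mem_cons_of_mem _ he'')) c hc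
      exact hz _ 0 hqb a (List.mem_of_mem_drop ha)
    rw [Spl.val, he _ hd, ht 1 _ one_ne_zero ?_, add_zero]
    intro t ht'
    simp only [Spl.der, List.mem_map] at ht'
    obtain ⟨t', h', rfl⟩ := ht'
    exact hk t' h'
  set A := 1 + (D.P.p.der 2).val 1 s / (2 * s) - D.P.p.val 2 s with hAdef
  have hAv : (D.aP (xP (Dy.int 0) D.first.b)).val x = (D.P.cd : ℝ) * s ^ 2 * A := by
    simp only [aP, QP.val_scale, QP.val_add, QP.val_pow, Dy.val_int,
      dPoly_val hu (hv.trans hsq.symm) hpoly.p hpoly.dp, hv, hsq, hAdef, Int.cast_natCast]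
    ring
  have hcdp : (0:ℝ) < D.P.cd := by exact_mod_cast Nat.pos_of_ne_zero hcd
  have hcu : 0 < (D.P.cd : ℝ) * s ^ 2 := mul_pos hcdp hu
  have hA : 0 ≤ A ∧ A ≤ D.first.lam.val := by
    have h1 := QP.nonneg hA0 hx
    have h2 := QP.nonneg hA1 hx
    rw [hAv] at h1
    simp only [QP.val_sub, QP.val_scale, QP.val_pow, Dy.val_mul, Dy.val_int, hv, hAv] at h2
    push_cast at h2
    exact ⟨nonneg_of_mul_nonneg_right h1 hcu, le_of_mul_le_mul_left (by linarith) hcu⟩
  obtain ⟨hy0', hy1'⟩ := y_mem_of_le hu (hub.le.trans (pow_le_pow_left₀ hbp.le hbS 2)) hy0 hy1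
  have hlogu : log (s ^ 2) ≤ 0 :=
    log_nonpos hu.le (hub.le.trans (pow_le_one₀ hbp.le hb1))
  have hlogu1 : log (D.P.S₁.val ^ 2) ≤ D.first.L₁.val := by
    rw [log_le_iff_le_exp (pow_pos hS₁ 2)]
    exact hL1
  rw [log_div hu.ne' (pow_pos hS₁ 2).ne'] at hy0'
  have hexp : D.P.K.val * exp (2 * y) ≤ D.first.Kc.val * (s ^ 2) ^ 2 := by
    have hK0 : 0 ≤ D.P.K.val :=
      le_of_lt (pos_of_mul_pos_left (lt_of_lt_of_le one_pos hK) (by positivity))
    have hq : 0 < 1 - exp (-(s ^ 2)) := by linarith [exp_lt_one_iff.2 (neg_neg_of_pos hu)]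
    have hC : 0 < 1 - exp (-(D.P.S₁.val ^ 2)) := lt_of_lt_of_le hcl hCl
    have h1 : exp y ≤ s ^ 2 / Cl := by
      refine ((exp_le_exp.2 hy1').trans_eq (exp_log (div_pos hq hC))).trans ?_
      refine (div_le_div_of_nonneg_left hq.le hcl hCl).trans ?_
      exact div_le_div_of_nonneg_right (by linarith [add_one_le_exp (-(s ^ 2))]) hcl.le
    have h2 : exp (2 * y) * Cl ^ 2 ≤ (s ^ 2) ^ 2 := by
      rw [two_mul, exp_add, ← sq, ← mul_pow]
      exact pow_le_pow_left₀ (by positivity) ((le_div_iff₀ hcl).1 h1) 2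
    have hKc0 : 0 ≤ D.first.Kc.val :=
      nonneg_of_mul_nonneg_left (hK0.trans hKc) (pow_pos hcl 2)
    calc D.P.K.val * exp (2 * y) ≤ D.first.Kc.val * Cl ^ 2 * exp (2 * y) :=
          mul_le_mul_of_nonneg_right hKc (exp_pos _).le
      _ ≤ D.first.Kc.val * (s ^ 2) ^ 2 := by
          rw [mul_assoc, mul_comm (Cl ^ 2)]
          exact mul_le_mul_of_nonneg_left h2 hKc0
  have main : ∀ (rr : Dy) (t : Tree), run t 3 (D.firstP rr).num = true →
      D.first.lam.val * log (s ^ 2) + (D.first.mu.1.val + D.first.mu.2.val * s ^ 2) ≤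
        (D.P.toData m).psi (D.P.cn / D.P.cd) (s ^ 2) z rr.val y := by
    intro rr t hrun
    have hnn := QP.nonneg hrun hx
    have hZ : (zP D.first.lz.1 D.first.lz.2 (xP (Dy.int 0) D.first.b)).val x = z := by
      simp only [zP, QP.val_sub, QP.val_add, QP.val_mul, QP.val_scale, QP.val_pow, QP.val_con,
        QP.val_var (show 1 < 3 by norm_num), Dy.val_int, hv]
      push_cast
      rw [← hLdef, show x 1 = ζ by simp [x]]
      exact hzζ
    simp only [firstP, QP.val_sub, QP.val_add, QP.val_scale, QP.val_mul, QP.val_pow, QP.val_con,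
      Dy.val_mul, Dy.val_int, Dy.val_neg, bodyPoly_val (m := m) hu (hv.trans hsq.symm) hpoly hcd,
      hZ, hv] at hnn
    push_cast at hnn
    have e : (D.P.toData m).psi (D.P.cn / D.P.cd) (s ^ 2) z rr.val y
        = (D.P.toData m).psi (D.P.cn / D.P.cd) (s ^ 2) z rr.val (-D.first.L₁.val)
          + exp (2 * -D.first.L₁.val) / (2 * D.P.S₀.val) - exp (2 * y) / (2 * D.P.S₀.val)
          + A * (y + D.first.L₁.val) := by
      simp only [ReqData.psi, ReqSpl.toData, hsq, hq0.1, hq0.2, hAdef]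
      ring
    have h1 : exp (2 * y) / (2 * D.P.S₀.val) ≤ D.first.Kc.val * (s ^ 2) ^ 2 := by
      rw [div_le_iff₀ (by positivity)]
      have := mul_le_mul_of_nonneg_right hexp (by positivity : 0 ≤ 2 * D.P.S₀.val)
      have := mul_le_mul_of_nonneg_left hK (exp_pos (2 * y)).le
      linarith
    have h2 : D.first.lam.val * log (s ^ 2) ≤ A * (y + D.first.L₁.val) :=
      (mul_le_mul_of_nonpos_right hA.2 hlogu).trans
        (mul_le_mul_of_nonneg_left (by linarith) hA.1)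
    refine le_of_mul_le_mul_left ?_ hcu
    rw [e]
    have := mul_le_mul_of_nonneg_left h1 hcu.le
    have := mul_le_mul_of_nonneg_left h2 hcu.le
    linarith
  have h0 := main (Dy.int 0) _ ht0
  have h1 := main (Dy.int 1) _ ht1
  simp only [Dy.val_int, Int.cast_zero, Int.cast_one] at h0 h1
  have e : (D.P.toData m).psi (D.P.cn / D.P.cd) (s ^ 2) z r y
      = (1 - r) * (D.P.toData m).psi (D.P.cn / D.P.cd) (s ^ 2) z 0 y
        + r * (D.P.toData m).psi (D.P.cn / D.P.cd) (s ^ 2) z 1 y := by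
    simp only [ReqData.psi]
    ring
  rw [e]
  linarith [mul_le_mul_of_nonneg_left h0 (sub_nonneg.2 hr1), mul_le_mul_of_nonneg_left h1 hr0]

/-- The inequality on the last interval. -/
theorem tail_spec {a : Dy} {ea : ExpB} (h : D.tailOk a ea = true) (hea : ea.ok (a.mul a) = true)
    (he1 : D.e₁.ok (D.P.S₁.mul D.P.S₁) = true) (hS₁ : 0 < D.P.S₁.val) (hS₀ : 0 < D.P.S₀.val)
    (hK : 1 ≤ D.P.K.val * (2 * D.P.S₀.val)) (hcd : D.P.cd ≠ 0) (m : ℝ → ℝ) {u z r y : ℝ}
    (hua : a.val ≤ √u) (hz0 : 0 ≤ z) (hz1 : z ≤ 1) (hr0 : 0 ≤ r) (hr1 : r ≤ 1)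
    (hy0 : min (log (u / D.P.S₁.val ^ 2))
      (log ((1 - exp (-u)) / (1 - exp (-(D.P.S₁.val ^ 2))))) ≤ y)
    (hy1 : y ≤ max (log (u / D.P.S₁.val ^ 2))
      (log ((1 - exp (-u)) / (1 - exp (-(D.P.S₁.val ^ 2)))))) :
    D.last.m₀.val + D.last.m₁.val * u + D.last.m₂.val * u ^ 2 ≤
      (D.P.toData m).psi (D.P.cn / D.P.cd) u z r y := by
  simp only [tailOk, Bool.and_eq_true, decide_eq_true_eq] at h
  obtain ⟨⟨⟨⟨⟨⟨⟨⟨⟨⟨ha0, hSa⟩, hbef⟩, heY⟩, hYlo⟩, heLU⟩, hLU⟩, hinv⟩, hKt⟩, ht0⟩, ht1⟩ := h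
  have ha : 0 < a.val := val_pos ha0
  have hu : 0 < u := sqrt_pos.1 (lt_of_lt_of_le ha hua)
  obtain ⟨s, hs, rfl⟩ : ∃ s, 0 < s ∧ u = s ^ 2 := ⟨√u, sqrt_pos.2 hu, (sq_sqrt hu.le).symm⟩
  have hsq : √(s ^ 2) = s := sqrt_sq hs.le
  rw [hsq] at hua
  obtain ⟨-, heY⟩ := SExp.ok_spec heY
  obtain ⟨heLU, -⟩ := SExp.ok_spec heLU
  obtain ⟨-, -, -, heA⟩ := ExpB.ok_spec hea
  have hYlo := Dy.le_spec hYlo
  have hLU := Dy.le_spec hLU
  have hinv := Dy.le_spec hinv
  have hKt := Dy.le_spec hKt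
  obtain ⟨hCl, hCh⟩ := cLo_le he1
  simp only [Dy.val_add, Dy.val_neg, Dy.val_mul, Dy.val_int, Int.cast_one, ← sq] at *
  set u₁ := D.P.S₁.val ^ 2 with hu₁def
  set U := a.val ^ 2 with hUdef
  have hu₁ : 0 < u₁ := pow_pos hS₁ 2
  have hU : u₁ ≤ U := pow_le_pow_left₀ hS₁.le (Dy.le_spec hSa) 2
  have hU0 : 0 < U := pow_pos ha 2
  have hUu : U ≤ s ^ 2 := pow_le_pow_left₀ ha.le hua 2
  obtain ⟨hy0', hy1'⟩ := y_mem_of_ge hu₁ (hU.trans hUu) hy0 hy1
  have hC : 0 < 1 - exp (-u₁) := by linarith [exp_lt_one_iff.2 (neg_neg_of_pos hu₁)]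
  have hq : 0 < 1 - exp (-(s ^ 2)) := by linarith [exp_lt_one_iff.2 (neg_neg_of_pos hu)]
  have hlo : D.last.Ylo.val ≤ y := by
    refine le_trans ?_ hy0'
    rw [le_log_iff_exp_le (div_pos hq hC), le_div_iff₀ hC]
    have := mul_le_mul heY hCh hC.le (le_trans (exp_pos _).le heY)
    have : exp (-(s ^ 2)) ≤ exp (-U) := exp_le_exp.2 (neg_le_neg hUu)
    linarith
  have hinv0 : 1 / U ≤ D.last.invU.val := by rw [div_le_iff₀ hU0]; linarith
  have hhi : y ≤ D.last.LU.val + -(D.last.invU.val * U) + D.last.invU.val * s ^ 2 := by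
    refine hy1'.trans ?_
    have h1 : log (U / u₁) ≤ D.last.LU.val := by
      rw [log_le_iff_le_exp (div_pos hU0 hu₁), div_le_iff₀ hu₁]
      exact hLU.trans (mul_le_mul_of_nonneg_right heLU hu₁.le)
    have h2 := log_le_sub_one_of_pos (div_pos hu hU0)
    rw [log_div hu.ne' hU0.ne'] at h2
    rw [log_div hU0.ne' hu₁.ne'] at h1
    rw [log_div hu.ne' hu₁.ne']
    have h3 := mul_le_mul_of_nonneg_right hinv0 (sub_nonneg.2 hUu)
    have e : 1 / U * (s ^ 2 - U) = s ^ 2 / U - 1 := by field_simp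
    linarith
  have hexp : exp (2 * y) ≤ (s ^ 2) ^ 2 / u₁ ^ 2 := by
    rw [← div_pow, two_mul, exp_add, ← sq]
    exact pow_le_pow_left₀ (exp_pos _).le
      ((exp_le_exp.2 hy1').trans_eq (exp_log (div_pos hu hu₁))) 2
  set hi := D.last.LU.val + -(D.last.invU.val * U) + D.last.invU.val * s ^ 2 with hhidef
  obtain ⟨τ, hτ0, hτ1, hyτ⟩ : ∃ τ, 0 ≤ τ ∧ τ ≤ 1 ∧
      y = D.last.Ylo.val + τ * (hi - D.last.Ylo.val) := by
    rcases (hlo.trans hhi).eq_or_lt with he | hlt
    · exact ⟨0, le_rfl, zero_le_one, by linarith⟩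
    · refine ⟨(y - D.last.Ylo.val) / (hi - D.last.Ylo.val),
        div_nonneg (by linarith) (by linarith), (div_le_one (by linarith)).2 (by linarith), ?_⟩
      rw [div_mul_cancel₀ _ (by linarith : hi - D.last.Ylo.val ≠ 0)]
      ring
  set x : ℕ → ℝ := fun i => if i = 0 then s - a.val else if i = 1 then z else τ
  have h0 : 0 ≤ x 0 := by simp [x]; linarith
  have hx : ∀ i, 0 ≤ x (i + 1) ∧ x (i + 1) ≤ 1 := fun i => by
    rcases eq_or_ne i 0 with rfl | hi'
    · simp [x, hz0, hz1]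
    · simp [x, hi', hτ0, hτ1]
  have hv : ((QP.con 3 a).add (QP.var 3 0)).val x = s := by simp [QP.val_var, x]
  have hpoly := D.P.polyAt_tail hbef (s := (QP.con 3 a).add (QP.var 3 0)) (x := x)
    (by rw [hv]; exact hua)
  have hcdp : (0:ℝ) < D.P.cd := by exact_mod_cast Nat.pos_of_ne_zero hcd
  have hcu : 0 < (D.P.cd : ℝ) * s ^ 2 := mul_pos hcdp hu
  have h1 : exp (2 * y) / (2 * D.P.S₀.val) ≤ D.last.Kt.val * (s ^ 2) ^ 2 := by
    have hK0 : 0 ≤ D.P.K.val :=
      le_of_lt (pos_of_mul_pos_left (lt_of_lt_of_le one_pos hK) (by positivity))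
    rw [div_le_iff₀ (by positivity)]
    refine hexp.trans ?_
    rw [div_le_iff₀ (pow_pos hu₁ 2)]
    have h5 := mul_le_mul_of_nonneg_left hK (sq_nonneg (s ^ 2))
    have h6 := mul_le_mul_of_nonneg_right hKt
      (mul_nonneg (sq_nonneg (s ^ 2)) (by positivity : 0 ≤ 2 * D.P.S₀.val))
    linarith
  have main : ∀ (rr : Dy) (t : Tree), runTail t 2 (D.tailP a rr).num = true →
      D.last.m₀.val + D.last.m₁.val * s ^ 2 + D.last.m₂.val * (s ^ 2) ^ 2 ≤
        (D.P.toData m).psi (D.P.cn / D.P.cd) (s ^ 2) z rr.val y := by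
    intro rr t hrun
    have hnn := QP.nonneg_tail hrun h0 hx
    have hx1 : (QP.var 3 1).val x = z := by rw [QP.val_var (by norm_num : 1 < 3)]; simp [x]
    have hx2 : (QP.var 3 2).val x = τ := by rw [QP.val_var (by norm_num : 2 < 3)]; simp [x]
    simp only [tailP, QP.val_sub, QP.val_add, QP.val_scale, QP.val_mul, QP.val_pow, QP.val_con,
      Dy.val_mul, Dy.val_int, Dy.val_neg, Dy.val_add,
      bodyPoly_val (m := m) hu (hv.trans hsq.symm) hpoly hcd, hx1, hx2,
      QP.val_var (show 0 < 3 by norm_num)] at hnn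
    rw [show a.val + x 0 = s by simp [x]] at hnn
    push_cast at hnn
    rw [show a.val * a.val = U by rw [hUdef]; ring, ← hhidef, ← hyτ] at hnn
    refine le_of_mul_le_mul_left ?_ hcu
    have := mul_le_mul_of_nonneg_left h1 hcu.le
    linarith
  have g0 := main (Dy.int 0) _ ht0
  have g1 := main (Dy.int 1) _ ht1
  simp only [Dy.val_int, Int.cast_zero, Int.cast_one] at g0 g1
  have e : (D.P.toData m).psi (D.P.cn / D.P.cd) (s ^ 2) z r y
      = (1 - r) * (D.P.toData m).psi (D.P.cn / D.P.cd) (s ^ 2) z 0 y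
        + r * (D.P.toData m).psi (D.P.cn / D.P.cd) (s ^ 2) z 1 y := by
    simp only [ReqData.psi]
    ring
  rw [e]
  linarith [mul_le_mul_of_nonneg_left g0 (sub_nonneg.2 hr1), mul_le_mul_of_nonneg_left g1 hr0]

lemma cell_facts {a : Dy} {ea : ExpB} {c : RCell} (h : RCell.ok D.P D.e₁ a ea c = true) :
    c.eb.ok (c.b.mul c.b) = true ∧ 0 < a.val ∧ a.val < c.b.val := by
  simp only [RCell.ok, Bool.and_eq_true, decide_eq_true_eq] at h
  obtain ⟨⟨⟨⟨⟨⟨⟨⟨⟨ha, hw⟩, heb⟩, -⟩, -⟩, -⟩, -⟩, -⟩, -⟩, -⟩ := h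
  have hw := val_pos hw
  rw [Dy.val_add, Dy.val_neg] at hw
  exact ⟨heb, val_pos ha, by linarith⟩

theorem rest_spec (he1 : D.e₁.ok (D.P.S₁.mul D.P.S₁) = true) (hS₁ : 0 < D.P.S₁.val)
    (hS₀ : 0 < D.P.S₀.val) (hK : 1 ≤ D.P.K.val * (2 * D.P.S₀.val)) (hcd : D.P.cd ≠ 0)
    (m : ℝ → ℝ) : ∀ (l : List RCell) (a : Dy) (ea : ExpB), D.allOk a ea l = true →
      ea.ok (a.mul a) = true → ∀ u z r y : ℝ, a.val ≤ √u → 0 ≤ z → z ≤ 1 →
      u ≤ z * (exp u - 1) → 0 ≤ r → r ≤ 1 →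
      min (log (u / D.P.S₁.val ^ 2))
        (log ((1 - exp (-u)) / (1 - exp (-(D.P.S₁.val ^ 2))))) ≤ y →
      y ≤ max (log (u / D.P.S₁.val ^ 2))
        (log ((1 - exp (-u)) / (1 - exp (-(D.P.S₁.val ^ 2))))) →
      D.mrest l u ≤ (D.P.toData m).psi (D.P.cn / D.P.cd) u z r y
  | [], a, ea, h, hea => fun u z r y hu hz0 hz1 _ hr0 hr1 hy0 hy1 =>
    tail_spec h hea he1 hS₁ hS₀ hK hcd m hu hz0 hz1 hr0 hr1 hy0 hy1
  | c :: l, a, ea, h, hea => fun u z r y hu hz0 hz1 hzu hr0 hr1 hy0 hy1 => by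
    simp only [allOk, Bool.and_eq_true] at h
    obtain ⟨heb, ha, hab⟩ := cell_facts h.1
    have hu0 : 0 < u := sqrt_pos.1 (lt_of_lt_of_le ha hu)
    rw [mrest]
    split_ifs with hc
    · refine RCell.cell_spec h.1 hea he1 hS₁ hS₀ hK hcd m hu ?_ hz0 hz1 hzu hr0 hr1 hy0 hy1
      rw [sqrt_le_left (ha.trans hab).le]
      exact hc.le
    · refine rest_spec he1 hS₁ hS₀ hK hcd m l c.b c.eb h.2 heb u z r y ?_ hz0 hz1 hzu hr0 hr1
        hy0 hy1
      exact (le_sqrt (ha.trans hab).le hu0.le).2 (not_lt.1 hc)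

lemma integral_exp_quad {U : ℝ} (hU : 0 ≤ U) (m₀ m₁ m₂ : ℝ) :
    IntegrableOn (fun u => exp (-u) * (m₀ + m₁ * u + m₂ * u ^ 2)) (Ici U) ∧
      ∫ u in Ici U, exp (-u) * (m₀ + m₁ * u + m₂ * u ^ 2)
        = exp (-U) * (m₀ + m₁ * (1 + U) + m₂ * (U * U + 2 * U + 2)) := by
  set G : ℝ → ℝ := fun u => m₀ + m₁ * (1 + u) + m₂ * (u * u + 2 * u + 2) with hG
  have hb : ∀ u, 0 ≤ u → ∀ p q r : ℝ, |exp (-u) * (p + q * u + r * u ^ 2)| ≤
      16 * (|p| + |q| + |r|) * exp (-(1 / 2) * u) := fun u hu p q r => by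
    have h1 : |p + q * u + r * u ^ 2| ≤ (|p| + |q| + |r|) * (1 + u) ^ 2 := by
      refine (abs_add_three _ _ _).trans ?_
      rw [abs_mul, abs_mul, abs_of_nonneg hu, abs_of_nonneg (sq_nonneg u), add_mul, add_mul]
      refine add_le_add_three (le_mul_of_one_le_right (abs_nonneg _) (one_le_pow₀ (by linarith)))
        (mul_le_mul_of_nonneg_left (by nlinarith) (abs_nonneg _))
        (mul_le_mul_of_nonneg_left (by nlinarith) (abs_nonneg _))
    rw [abs_mul, abs_of_pos (exp_pos _)]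
    calc exp (-u) * |p + q * u + r * u ^ 2|
        ≤ exp (-u) * ((|p| + |q| + |r|) * (1 + u) ^ 2) := by gcongr
      _ = (|p| + |q| + |r|) * (exp (-u) * (1 + u) ^ 2) := by ring
      _ ≤ (|p| + |q| + |r|) * (16 * exp (-(1 / 2) * u)) :=
          mul_le_mul_of_nonneg_left (Req.one_add_sq hu) (by positivity)
      _ = _ := by ring
  have hi : IntegrableOn (fun u => exp (-u) * (m₀ + m₁ * u + m₂ * u ^ 2)) (Ioi U) := by
    refine Integrable.mono' ((exp_neg_integrableOn_Ioi U (show (0:ℝ) < 1 / 2 by norm_num)).const_mul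
      (16 * (|m₀| + |m₁| + |m₂|))) (by fun_prop)
      ((ae_restrict_mem measurableSet_Ioi).mono fun u hu => ?_)
    exact hb u (hU.trans (le_of_lt hu)) m₀ m₁ m₂
  refine ⟨(integrableOn_Ici_iff_integrableOn_Ioi).2 hi, ?_⟩
  have hd : ∀ u ∈ Ici U,
      HasDerivAt (fun u => -(exp (-u) * G u)) (exp (-u) * (m₀ + m₁ * u + m₂ * u ^ 2)) u := by
    intro u _
    have h1 : HasDerivAt G (m₁ + m₂ * (2 * u + 2)) u :=
      ((((hasDerivAt_id u).const_add 1).const_mul m₁).const_add m₀ |>.add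
        ((((hasDerivAt_id u).mul (hasDerivAt_id u)).add ((hasDerivAt_id u).const_mul 2)).add_const 2
          |>.const_mul m₂)).congr_deriv (by simp only [id]; ring)
    refine (((hasDerivAt_id u).fun_neg.exp).fun_mul h1).fun_neg.congr_deriv ?_
    simp only [hG, id]
    ring
  have ht : Filter.Tendsto (fun u => -(exp (-u) * G u)) Filter.atTop (nhds 0) := by
    refine squeeze_zero_norm' (a := fun u => 16 * (|m₀ + m₁ + 2 * m₂| + |m₁ + 2 * m₂| + |m₂|)
      * exp (-(1 / 2) * u)) ?_ ?_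
    · filter_upwards [Filter.eventually_ge_atTop (0:ℝ)] with u hu
      rw [norm_neg, norm_eq_abs, show G u = m₀ + m₁ + 2 * m₂ + (m₁ + 2 * m₂) * u + m₂ * u ^ 2 by
        simp only [hG]; ring]
      exact hb u hu _ _ _
    · simpa using (tendsto_exp_atBot.comp (Filter.tendsto_id.const_mul_atTop_of_neg
        (by norm_num : (-(1/2) : ℝ) < 0))).const_mul
          (16 * (|m₀ + m₁ + 2 * m₂| + |m₁ + 2 * m₂| + |m₂|))
  rw [integral_Ici_eq_integral_Ioi, integral_Ioi_of_hasDerivAt_of_tendsto' hd hi ht]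
  simp [hG]

theorem int_spec : ∀ (l : List RCell) (a : Dy) (ea : ExpB), D.allOk a ea l = true →
    ea.ok (a.mul a) = true →
    IntegrableOn (fun u => exp (-u) * D.mrest l u) (Ici (a.val ^ 2)) ∧
      (D.lowInt a ea l).val ≤ ∫ u in Ici (a.val ^ 2), exp (-u) * D.mrest l u
  | [], a, ea, _, hea => by
    obtain ⟨hi, hv⟩ := integral_exp_quad (sq_nonneg a.val) D.last.m₀.val D.last.m₁.val D.last.m₂.val
    refine ⟨hi, ?_⟩
    simp only [mrest] at hv ⊢
    rw [hv, lowInt]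
    refine (ExpB.lowMul_spec hea _).trans_eq ?_
    simp only [Dy.val_add, Dy.val_mul, Dy.val_int]
    push_cast
    ring_nf
  | c :: l, a, ea, h, hea => by
    simp only [allOk, Bool.and_eq_true] at h
    obtain ⟨heb, ha, hab⟩ := cell_facts h.1
    have hle : a.val ^ 2 ≤ c.b.val ^ 2 := pow_le_pow_left₀ ha.le hab.le 2
    obtain ⟨hi, hv⟩ := integral_exp_affine hle c.mu.1.val c.mu.2.val
    obtain ⟨hj, hw'⟩ := int_spec l c.b c.eb h.2 heb
    have e1 : EqOn (fun u => exp (-u) * D.mrest (c :: l) u)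
        (fun u => exp (-u) * (c.mu.1.val + c.mu.2.val * u)) (Ico (a.val ^ 2) (c.b.val ^ 2)) :=
      fun u hu => by simp only [mrest, if_pos hu.2]
    have e2 : EqOn (fun u => exp (-u) * D.mrest (c :: l) u)
        (fun u => exp (-u) * D.mrest l u) (Ici (c.b.val ^ 2)) := fun u hu => by
      simp only [mrest, if_neg (not_lt.2 (mem_Ici.1 hu))]
    have hi' := hi.congr_fun e1.symm measurableSet_Ico
    have hj' := hj.congr_fun e2.symm measurableSet_Ici
    rw [← Ico_union_Ici_eq_Ici hle]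
    refine ⟨hi'.union hj', ?_⟩
    rw [setIntegral_union (show Disjoint (Ico (a.val ^ 2) (c.b.val ^ 2)) (Ici (c.b.val ^ 2)) from
        Set.disjoint_left.2 fun _ h1 h2 => not_le.2 h1.2 (mem_Ici.1 h2))
      measurableSet_Ici hi' hj', setIntegral_congr_fun measurableSet_Ico e1,
      setIntegral_congr_fun measurableSet_Ici e2, hv, lowInt, Dy.val_add, Dy.val_add]
    refine add_le_add (le_trans (add_le_add (ExpB.lowMul_spec hea _) (ExpB.lowMul_spec heb _))
      (le_of_eq ?_)) hw'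
    simp only [OneCert.primAt, Dy.val_add, Dy.val_mul, Dy.val_neg]
    ring_nf

lemma mrest_right : ∀ (l : List RCell) (u : ℝ), ContinuousWithinAt (D.mrest l) (Ici u) u
  | [], u => (by fun_prop : Continuous fun v : ℝ =>
      D.last.m₀.val + D.last.m₁.val * v + D.last.m₂.val * v ^ 2).continuousWithinAt
  | c :: r, u => by
    rcases lt_or_ge u (c.b.val ^ 2) with h | h
    · refine ContinuousWithinAt.congr_of_eventuallyEq
        (f := fun x => c.mu.1.val + c.mu.2.val * x) (by fun_prop) ?_ (by rw [mrest, if_pos h])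
      filter_upwards [mem_nhdsWithin_of_mem_nhds (Iio_mem_nhds h)] with x hx
      rw [mrest, if_pos (mem_Iio.1 hx)]
    · refine (mrest_right r u).congr (fun x hx => ?_) (by rw [mrest, if_neg (not_lt.2 h)])
      rw [mrest, if_neg (not_lt.2 (h.trans hx))]

/-- The checker is sound. -/
theorem sound (h : D.ok = true) {c e : ℝ} (hc : c * (D.P.cd : ℝ) = D.P.cn)
    (he : e * (D.ed : ℝ) = D.en) : Requirement c e := by
  simp only [ok, Bool.and_eq_true, decide_eq_true_eq] at h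
  obtain ⟨⟨⟨⟨⟨⟨⟨⟨⟨⟨⟨⟨⟨hed, hS₀⟩, hS₁⟩, hreg⟩, hK⟩, he1⟩, heLS⟩, hLS⟩, kβ⟩, kγ⟩, he0⟩, hf⟩, hall⟩,
    hfin⟩ := h
  have hS₀ := val_pos hS₀
  have hS₁ := val_pos hS₁
  have hcd : D.P.cd ≠ 0 := by
    have h' := hreg
    simp only [ReqSpl.regular, Bool.and_eq_true, decide_eq_true_eq] at h'
    have := h'.1.1.1.1.1.1.1.1.1.1.2
    omega
  have hcdp : (0:ℝ) < D.P.cd := by exact_mod_cast Nat.pos_of_ne_zero hcd
  have hK := Dy.le_spec hK
  simp only [Dy.val_mul, Dy.val_int, Int.cast_one, Int.cast_ofNat] at hK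
  have hLS := Dy.le_spec hLS
  obtain ⟨heLS, -⟩ := SExp.ok_spec heLS
  have hLS' : log D.P.S₀.val ≤ D.LS.val := (log_le_iff_le_exp hS₀).2 (hLS.trans heLS)
  have hf' := hf
  simp only [firstOk, Bool.and_eq_true, decide_eq_true_eq] at hf'
  obtain ⟨⟨⟨⟨⟨⟨⟨⟨⟨⟨⟨⟨⟨⟨⟨⟨⟨⟨hb0, hb1⟩, -⟩, heb⟩, -⟩, -⟩, -⟩, -⟩, hlam⟩, -⟩, -⟩, hLb⟩, hLb'⟩, -⟩, -⟩,
    -⟩, -⟩, -⟩, -⟩ := hf'
  set b := D.first.b.val with hbdef
  have hb : 0 < b := val_pos hb0
  set B := b ^ 2 with hBdef
  have hB : 0 < B := pow_pos hb 2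
  obtain ⟨hri, hrv⟩ := int_spec D.cells D.first.b D.first.eb hall heb
  obtain ⟨hai, hav⟩ := integral_exp_affine (le_of_lt hB) D.first.mu.1.val D.first.mu.2.val
  -- the minorant on the first interval
  have hlogi : IntegrableOn (fun u => exp (-u) * log u) (Ioo 0 B) :=
    integrableOn_exp_log.mono_set Ioo_subset_Ioi_self
  have hai' : IntegrableOn (fun u => exp (-u) * (D.first.mu.1.val + D.first.mu.2.val * u))
      (Ioo 0 B) := hai.mono_set Ioo_subset_Ico_self
  have hf1 : IntegrableOn (fun u => exp (-u) *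
      (D.first.lam.val * log u + (D.first.mu.1.val + D.first.mu.2.val * u))) (Ioo 0 B) := by
    refine IntegrableOn.congr_fun ((hlogi.const_mul D.first.lam.val).add hai') (fun u _ => ?_)
      measurableSet_Ioo
    simp only [Pi.add_apply]
    ring
  have hlog : B * (log B - 1) ≤ ∫ u in Ioo 0 B, exp (-u) * log u := by
    have hB1 : B ≤ 1 := pow_le_one₀ hb.le (by simpa using Dy.le_spec hb1)
    have e : ∫ u in Ioo 0 B, log u = B * (log B - 1) := by
      rw [← integral_Ioc_eq_integral_Ioo, ← intervalIntegral.integral_of_le hB.le, integral_log]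
      ring
    rw [← e]
    refine setIntegral_mono_on ((intervalIntegral.intervalIntegrable_log' (a := 0) (b := B)).1
      |>.mono_set Ioo_subset_Ioc_self) hlogi measurableSet_Ioo fun u hu => ?_
    have h1 : log u ≤ 0 := log_nonpos hu.1.le (hu.2.le.trans hB1)
    have h2 : exp (-u) ≤ 1 := exp_le_one_iff.2 (by linarith [hu.1])
    have := mul_le_mul_of_nonpos_right h2 h1
    linarith
  have hmi : IntegrableOn (fun u => exp (-u) * D.mfun u) (Ioo 0 B) ∧
      IntegrableOn (fun u => exp (-u) * D.mfun u) (Ici B) :=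
    ⟨hf1.congr_fun (fun u hu => by simp only [mfun_lt hu.2])
      measurableSet_Ioo,
    hri.congr_fun (fun u hu => by
      simp only [mfun_ge (mem_Ici.1 hu)]) measurableSet_Ici⟩
  have hsplit : Ioo 0 B ∪ Ici B = Ioi 0 := Ioo_union_Ici_eq_Ioi hB
  have hm_int : IntegrableOn (fun u => exp (-u) * D.mfun u) (Ioi 0) := by
    rw [← hsplit]; exact hmi.1.union hmi.2
  have hint : D.total.val ≤ ∫ u in Ioi (0:ℝ), exp (-u) * D.mfun u := by
    rw [← hsplit, setIntegral_union (Set.disjoint_left.2 fun _ h1 h2 =>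
        not_le.2 h1.2 (mem_Ici.1 h2)) measurableSet_Ici hmi.1 hmi.2,
      setIntegral_congr_fun measurableSet_Ioo (fun u hu => by
        show exp (-u) * D.mfun u = D.first.lam.val * (exp (-u) * log u)
          + exp (-u) * (D.first.mu.1.val + D.first.mu.2.val * u)
        rw [mfun_lt hu.2]; ring),
      setIntegral_congr_fun measurableSet_Ici (fun u hu => by
        show exp (-u) * D.mfun u = exp (-u) * D.mrest D.cells u
        rw [mfun_ge (mem_Ici.1 hu)]),
      integral_add (hlogi.const_mul _) hai', integral_const_mul]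
    have e2 : ∫ u in Ioo 0 B, exp (-u) * (D.first.mu.1.val + D.first.mu.2.val * u)
        = ∫ u in Ico 0 B, exp (-u) * (D.first.mu.1.val + D.first.mu.2.val * u) :=
      (integral_Ico_eq_integral_Ioo).symm
    rw [e2, hav, total, Dy.val_add, Dy.val_add, Dy.val_add]
    refine add_le_add (add_le_add ?_ ?_) hrv
    · obtain ⟨-, hLb⟩ := SExp.ok_spec hLb
      have hLb'' := (hLb.trans (le_refl _)).trans (Dy.le_spec hLb')
      simp only [Dy.val_mul, Dy.val_add, Dy.val_int, ← sq, ← hbdef, ← hBdef] at hLb'' ⊢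
      have hlB : D.first.Lb.val ≤ log B := (le_log_iff_exp_le hB).2 hLb''
      refine le_trans ?_ (mul_le_mul_of_nonneg_left hlog (Dy.val_nonneg hlam))
      push_cast
      linarith [mul_le_mul_of_nonneg_left hlB (mul_nonneg (Dy.val_nonneg hlam) hB.le)]
    · refine (add_le_add (ExpB.lowMul_spec (x := Dy.int 0) he0 _) (ExpB.lowMul_spec heb _)).trans_eq
        ?_
      simp only [OneCert.primAt, Dy.val_add, Dy.val_mul, Dy.val_neg, Dy.val_int, ← hbdef, hBdef]
      push_cast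
      ring_nf
  have hright : ∀ u, 0 < u → ContinuousWithinAt D.mfun (Ici u) u := by
    intro u hu
    rcases lt_or_ge u B with h | h
    · refine ContinuousWithinAt.congr_of_eventuallyEq (f := fun x => D.first.lam.val * log x
        + (D.first.mu.1.val + D.first.mu.2.val * x)) ?_ ?_
        (mfun_lt h)
      · exact ((continuousWithinAt_const.mul (continuousAt_log hu.ne').continuousWithinAt).add
          (by fun_prop))
      · filter_upwards [mem_nhdsWithin_of_mem_nhds (Iio_mem_nhds h)] with x hx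
        exact mfun_lt (mem_Iio.1 hx)
    · refine (mrest_right D.cells u).congr (fun x hx => ?_)
        (mfun_ge h)
      exact mfun_ge (h.trans hx)
  have hR := ReqSpl.regular_spec hreg hright hm_int
  have hcq : c = (D.P.cn : ℝ) / D.P.cd := by rw [eq_div_iff hcdp.ne']; exact hc
  intro g R hg
  refine reqSound (D.P.toData D.mfun) c e (by rw [hcq]; positivity) hR ?_ ?_ hg
  · intro u z r y hu hz0 hz1 hzu hr0 hr1 hy0 hy1
    rw [hcq]
    change D.mfun u ≤ _
    rw [mfun]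
    split_ifs with hc'
    · exact first_spec hf he1 hS₀ hK hcd he0 _ hu hc' hz0 hz1 hzu hr0 hr1 hy0 hy1
    · exact rest_spec he1 hS₁ hS₀ hK hcd _ D.cells D.first.b D.first.eb hall heb u z r y
        ((le_sqrt hb.le hu.le).2 (not_lt.1 hc')) hz0 hz1 hzu hr0 hr1 hy0 hy1
  · simp only [finalOk] at hfin
    have hfin := Dy.le_spec hfin
    simp only [Dy.val_add, Dy.val_mul, Dy.val_neg, Dy.val_int] at hfin
    rw [show (Dy.mk 1 1).val = 1 / 2 by norm_num [Dy.val]] at hfin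
    push_cast at hfin
    show e ≤ D.P.β.val 2 √0 + D.P.γ.val 2 √0 - c + log 2 + 1 / 2 - log D.P.S₀.val / 2
        + ∫ u in Ioi (0:ℝ), exp (-u) * D.mfun u
    rw [sqrt_zero, OneCert.val_zero kβ 2 (by norm_num), OneCert.val_zero kγ 2 (by norm_num)]
    have hedp : (0:ℝ) < D.ed := by exact_mod_cast hed
    have h2 := log_two_gt_d9
    rw [← he, ← hc] at hfin
    have hk : (0:ℝ) < (D.P.cd : ℝ) * 100000000 * D.ed :=
      mul_pos (mul_pos hcdp (by norm_num)) hedp
    refine le_of_mul_le_mul_right ?_ hk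
    have g1 := mul_le_mul_of_nonneg_right hint hk.le
    have g2 := mul_le_mul_of_nonneg_right hLS' hk.le
    have g3 := mul_le_mul_of_nonneg_right h2.le hk.le
    have g4 : (69314718 : ℝ) / 100000000 * ((D.P.cd : ℝ) * 100000000 * D.ed)
        ≤ 0.6931471803 * ((D.P.cd : ℝ) * 100000000 * D.ed) :=
      mul_le_mul_of_nonneg_right (by norm_num) hk.le
    linarith

end ReqCert

end Vale.Agent.P254.Uncond.Check
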