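import Vale.Agent.P254.Uncond.Cert
import Vale.Agent.P254.Uncond.Check.Spline

/-!
The data of a requirement certificate built from splines in `s = √u`, and the polynomial which
bounds `u * psi` on a cell.
-/

open Real Set

namespace Vale.Agent.P254.Uncond.Check

/-- Splines and constants of a requirement certificate. `Q` is `Γ` in the variable `√u`, of
exponent three; the others have exponent two. `c = cn / cd`, `u₁ = S₁ ^ 2`. -/
structure ReqSpl where
  /-- numerator of `c` -/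
  cn : ℕ
  /-- denominator of `c` -/
  cd : ℕ
  /-- square root of `u₁` -/
  S₁ : Dy
  /-- the normalisation of the second moment -/
  S₀ : Dy
  /-- an upper bound of `1 / (2 S₀)` -/
  K : Dy
  /-- the primitive of the reference -/
  Q : Spl
  /-- coefficient of `z` -/
  β : Spl
  /-- coefficient of `z ^ 2` -/
  γ : Spl
  /-- coefficient of `y` -/
  p : Spl
  /-- coefficient of `y ^ 2` -/
  q : Spl

/-- The certificate data with lower bound `m`. -/
noncomputable def ReqSpl.toData (P : ReqSpl) (m : ℝ → ℝ) : ReqData where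
  u₁ := P.S₁.val ^ 2
  S₀ := P.S₀.val
  w u := (P.Q.der 3).val 2 √u / (2 * √u)
  Γ u := P.Q.val 3 √u
  β u := P.β.val 2 √u
  dβ u := (P.β.der 2).val 1 √u / (2 * √u)
  γ u := P.γ.val 2 √u
  dγ u := (P.γ.der 2).val 1 √u / (2 * √u)
  p u := P.p.val 2 √u
  dp u := (P.p.der 2).val 1 √u / (2 * √u)
  q u := P.q.val 2 √u
  dq u := (P.q.der 2).val 1 √u / (2 * √u)
  m := m

lemma hasDerivAt_spl_sqrt (S : Spl) (e : ℕ) {u : ℝ} (hu : 0 < u) :
    HasDerivAt (fun v => S.val (e + 2) √v) ((S.der (e + 2)).val (e + 1) √u / (2 * √u)) u :=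
  ((S.hasDerivAt e √u).comp u (hasDerivAt_sqrt hu.ne')).congr_deriv (by ring)

variable {n : ℕ}

/-- A number as a polynomial. -/
def qc (a : Dy) : QP n := QP.con n a

/-- One half. -/
def half₂ : Dy := ⟨1, 1⟩

/-- `s S'(s) / 2 - s ^ 2 S(s)`, that is `u (dS - S)`. -/
def dPoly (S : Spl) (a : Dy) (s : QP n) : QP n :=
  ((s.mul ((S.der 2).poly 1 a s)).scale half₂).sub ((s.mul s).mul (S.poly 2 a s))

/-- `cd u (psi + exp (2 y) / (2 S₀))` as a polynomial, for the values `s, z, y` and `r = rr`. -/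
def bodyPoly (P : ReqSpl) (a : Dy) (s z y : QP n) (rr : Dy) : QP n :=
  let u := s.mul s
  let d := (P.Q.der 3).poly 2 a s
  let S' := ((P.β.poly 2 a s).mul z).add (((P.γ.poly 2 a s).mul (z.mul z)).scale (Dy.int 2))
  ((((P.Q.poly 3 a s).mul z).scale (Dy.int 2)).sub ((d.mul d).scale ⟨1, 2⟩)).scale (Dy.int P.cn)
    |>.add
  ((((u.mul y).add (S'.mul ((((qc (Dy.int 1)).sub z).sub u).add (u.scale rr)))).add
    ((((dPoly P.β a s).mul z).add ((dPoly P.γ a s).mul (z.mul z))).add
      (((dPoly P.p a s).mul y).add ((dPoly P.q a s).mul (y.mul y))))).add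
    (((P.p.poly 2 a s).add (((P.q.poly 2 a s).mul y).scale (Dy.int 2))).mul z) |>.scale
      (Dy.int P.cd))

/-- The splines are polynomials at the points at which they are evaluated. -/
structure ReqSpl.PolyAt (P : ReqSpl) (a : Dy) (s : QP n) (x : ℕ → ℝ) : Prop where
  Q : (P.Q.poly 3 a s).val x = P.Q.val 3 (s.val x)
  dQ : ((P.Q.der 3).poly 2 a s).val x = (P.Q.der 3).val 2 (s.val x)
  β : (P.β.poly 2 a s).val x = P.β.val 2 (s.val x)
  dβ : ((P.β.der 2).poly 1 a s).val x = (P.β.der 2).val 1 (s.val x)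
  γ : (P.γ.poly 2 a s).val x = P.γ.val 2 (s.val x)
  dγ : ((P.γ.der 2).poly 1 a s).val x = (P.γ.der 2).val 1 (s.val x)
  p : (P.p.poly 2 a s).val x = P.p.val 2 (s.val x)
  dp : ((P.p.der 2).poly 1 a s).val x = (P.p.der 2).val 1 (s.val x)
  q : (P.q.poly 2 a s).val x = P.q.val 2 (s.val x)
  dq : ((P.q.der 2).poly 1 a s).val x = (P.q.der 2).val 1 (s.val x)

/-- All splines are free of knots inside `[a, b]`. -/
def ReqSpl.free (P : ReqSpl) (a b : Dy) : Bool :=
  P.Q.free a b && P.β.free a b && P.γ.free a b && P.p.free a b && P.q.free a b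

/-- All knots lie at most at `a`. -/
def ReqSpl.before (P : ReqSpl) (a : Dy) : Bool :=
  P.Q.before a && P.β.before a && P.γ.before a && P.p.before a && P.q.before a

lemma Spl.free_der (S : Spl) (e : ℕ) {a b : Dy} (h : S.free a b = true) :
    (S.der e).free a b = true := by
  simpa [Spl.free, Spl.der, List.all_map, Function.comp_def] using h

lemma Spl.before_der (S : Spl) (e : ℕ) {a : Dy} (h : S.before a = true) :
    (S.der e).before a = true := by
  simpa [Spl.before, Spl.der, List.all_map, Function.comp_def] using h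

lemma ReqSpl.polyAt (P : ReqSpl) {a b : Dy} (h : P.free a b = true) {s : QP n} {x : ℕ → ℝ}
    (ha : a.val ≤ s.val x) (hb : s.val x ≤ b.val) : P.PolyAt a s x := by
  simp only [ReqSpl.free, Bool.and_eq_true] at h
  obtain ⟨⟨⟨⟨h1, h2⟩, h3⟩, h4⟩, h5⟩ := h
  constructor <;>
    first
    | exact Spl.poly_val _ (by norm_num) ‹_› ha hb
    | exact Spl.poly_val _ (by norm_num) (Spl.free_der _ _ ‹_›) ha hb

lemma ReqSpl.polyAt_tail (P : ReqSpl) {a : Dy} (h : P.before a = true) {s : QP n} {x : ℕ → ℝ}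
    (ha : a.val ≤ s.val x) : P.PolyAt a s x := by
  simp only [ReqSpl.before, Bool.and_eq_true] at h
  obtain ⟨⟨⟨⟨h1, h2⟩, h3⟩, h4⟩, h5⟩ := h
  constructor <;>
    first
    | exact Spl.poly_tail _ (by norm_num) ‹_› ha
    | exact Spl.poly_tail _ (by norm_num) (Spl.before_der _ _ ‹_›) ha

lemma dPoly_val {S : Spl} {a : Dy} {s : QP n} {x : ℕ → ℝ} {u : ℝ} (hu : 0 < u)
    (hs : s.val x = √u) (hS : (S.poly 2 a s).val x = S.val 2 (s.val x))
    (hd : ((S.der 2).poly 1 a s).val x = (S.der 2).val 1 (s.val x)) :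
    (dPoly S a s).val x = u * ((S.der 2).val 1 √u / (2 * √u) - S.val 2 √u) := by
  have h : 0 < √u := sqrt_pos.2 hu
  simp only [dPoly, QP.val_sub, QP.val_scale, QP.val_mul, hS, hd, hs, half₂, Dy.val]
  push_cast
  field_simp
  linear_combination ((S.der 2).val 1 √u - 2 * S.val 2 √u * √u) * sq_sqrt hu.le

/-- `bodyPoly` is the rescaled pointwise function without its exponential term. -/
theorem bodyPoly_val {P : ReqSpl} {m : ℝ → ℝ} {a : Dy} {s z y : QP n} {rr : Dy} {x : ℕ → ℝ}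
    {u : ℝ} (hu : 0 < u) (hs : s.val x = √u) (hP : P.PolyAt a s x) (hcd : P.cd ≠ 0) :
    (bodyPoly P a s z y rr).val x = (P.cd : ℝ) * u *
      ((P.toData m).psi (P.cn / P.cd) u (z.val x) rr.val (y.val x)
        + exp (2 * y.val x) / (2 * P.S₀.val)) := by
  have h : 0 < √u := sqrt_pos.2 hu
  have hcd' : (P.cd : ℝ) ≠ 0 := Nat.cast_ne_zero.2 hcd
  simp only [bodyPoly, qc, QP.val_sub, QP.val_add, QP.val_scale, QP.val_mul, QP.val_con,
    dPoly_val hu hs hP.β hP.dβ, dPoly_val hu hs hP.γ hP.dγ, dPoly_val hu hs hP.p hP.dp,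
    dPoly_val hu hs hP.q hP.dq, hP.Q, hP.dQ, hP.β, hP.γ, hP.p, hP.q, hs, Dy.val_int,
    ReqData.psi, ReqSpl.toData, Int.cast_natCast]
  rw [show (Dy.mk 1 2).val = 1 / 4 by norm_num [Dy.val]]
  have hsq := sq_sqrt hu.le
  generalize √u = t at h hsq ⊢
  subst hsq
  push_cast
  rw [← sub_eq_zero]
  field_simp
  ring

end Vale.Agent.P254.Uncond.Check
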