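import Mathlib

/-!
Bounds by affine functions for the range of `y = log (t / t₁)` in a certificate of the requirement,
and the chord bound of `exp (2 y)`. All hypotheses are inequalities at the ends of a cell.
-/

open Real Set

namespace Vale.Agent.P254.Uncond.Check

/-- An affine function is nonnegative between two points where it is. -/
lemma affine_nonneg {a b u p q : ℝ} (hu : u ∈ Icc a b) (ha : 0 ≤ p + q * a) (hb : 0 ≤ p + q * b) :
    0 ≤ p + q * u := by
  rcases le_total 0 q with hq | hq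
  · linarith [mul_le_mul_of_nonneg_left hu.1 hq]
  · linarith [mul_le_mul_of_nonpos_left hu.2 hq]

/-- The exponential of an affine function is below its chord. -/
lemma exp_affine_le_chord {a b u p q Ea Eb : ℝ} (hu : u ∈ Icc a b)
    (ha : exp (p + q * a) ≤ Ea) (hb : exp (p + q * b) ≤ Eb) :
    (b - a) * exp (p + q * u) ≤ (b - u) * Ea + (u - a) * Eb := by
  rcases (hu.1.trans hu.2).eq_or_lt with rfl | hab
  · have : u = a := le_antisymm hu.2 hu.1
    subst this
    simp
  have h := convexOn_exp.2 (mem_univ (p + q * a)) (mem_univ (p + q * b))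
    (div_nonneg (sub_nonneg.2 hu.2) (sub_nonneg.2 hab.le))
    (div_nonneg (sub_nonneg.2 hu.1) (sub_nonneg.2 hab.le))
    (by field_simp; ring)
  simp only [smul_eq_mul] at h
  rw [show (b - u) / (b - a) * (p + q * a) + (u - a) / (b - a) * (p + q * b) = p + q * u by
    field_simp; ring] at h
  have h' := mul_le_mul_of_nonneg_left h (sub_nonneg.2 hab.le)
  rw [show (b - a) * ((b - u) / (b - a) * exp (p + q * a) + (u - a) / (b - a) * exp (p + q * b))
      = (b - u) * exp (p + q * a) + (u - a) * exp (p + q * b) by field_simp] at h'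
  linarith [mul_le_mul_of_nonneg_left ha (sub_nonneg.2 hu.2),
    mul_le_mul_of_nonneg_left hb (sub_nonneg.2 hu.1)]

/-- The chord bound of `exp (2 y)`. -/
lemma exp_two_mul_le_chord {Y₀ Y₁ y E₀ E₁ : ℝ} (hy : y ∈ Icc Y₀ Y₁) (h₀ : exp (2 * Y₀) ≤ E₀)
    (h₁ : exp (2 * Y₁) ≤ E₁) :
    (Y₁ - Y₀) * exp (2 * y) ≤ (Y₁ - y) * E₀ + (y - Y₀) * E₁ := by
  simpa using exp_affine_le_chord (p := 0) (q := 2) hy (by simpa using h₀) (by simpa using h₁)

/-- The exponential is below its chord by at least the parabola of its least curvature `F`. -/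
lemma exp_le_strong_chord {x₀ x₁ E₀ E₁ F τ : ℝ} (hτ : τ ∈ Icc (0:ℝ) 1) (h₀ : exp x₀ ≤ E₀)
    (h₁ : exp x₁ ≤ E₁) (hF₀ : F ≤ exp x₀) (hF₁ : F ≤ exp x₁) :
    exp ((1 - τ) * x₀ + τ * x₁) ≤
      (1 - τ) * E₀ + τ * E₁ - F / 2 * τ * (1 - τ) * (x₁ - x₀) ^ 2 := by
  have hF : ∀ x ∈ Ioo (min x₀ x₁) (max x₀ x₁), F ≤ exp x := fun x hx => by
    rcases le_total x₀ x₁ with h | h
    · exact hF₀.trans (exp_le_exp.2 (by rw [min_eq_left h] at hx; exact hx.1.le))
    · exact hF₁.trans (exp_le_exp.2 (by rw [min_eq_right h] at hx; exact hx.1.le))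
  have hd : ∀ x, HasDerivAt (fun x => exp x - F / 2 * x ^ 2) (exp x - F * x) x := fun x =>
    ((hasDerivAt_exp x).sub ((hasDerivAt_pow 2 x).const_mul (F / 2))).congr_deriv
      (by push_cast; ring)
  have hc : ConvexOn ℝ (Icc (min x₀ x₁) (max x₀ x₁)) fun x => exp x - F / 2 * x ^ 2 := by
    refine MonotoneOn.convexOn_of_deriv (convex_Icc _ _)
      (fun x _ => (hd x).continuousAt.continuousWithinAt)
      (fun x _ => (hd x).differentiableAt.differentiableWithinAt) ?_
    have e : deriv (fun x => exp x - F / 2 * x ^ 2) = fun x => exp x - F * x :=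
      funext fun x => (hd x).deriv
    rw [interior_Icc, e]
    have hd2 : ∀ x, HasDerivAt (fun x => exp x - F * x) (exp x - F * 1) x := fun x =>
      (hasDerivAt_exp x).sub ((hasDerivAt_id x).const_mul F)
    refine monotoneOn_of_hasDerivWithinAt_nonneg (convex_Ioo _ _)
      (fun x _ => (hd2 x).continuousAt.continuousWithinAt)
      (f' := fun x => exp x - F * 1) (fun x _ => (hd2 x).hasDerivWithinAt) fun x hx => ?_
    rw [interior_Ioo] at hx
    linarith [hF x hx]
  have h := hc.2 (show x₀ ∈ Icc (min x₀ x₁) (max x₀ x₁) from ⟨min_le_left _ _, le_max_left _ _⟩)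
    (show x₁ ∈ Icc (min x₀ x₁) (max x₀ x₁) from ⟨min_le_right _ _, le_max_right _ _⟩)
    (sub_nonneg.2 hτ.2) hτ.1 (by ring)
  simp only [smul_eq_mul] at h
  have := mul_le_mul_of_nonneg_left h₀ (sub_nonneg.2 hτ.2)
  have := mul_le_mul_of_nonneg_left h₁ hτ.1
  linarith

/-- An affine upper bound of a logarithm, from a tangent of the exponential: `E` is any lower
bound of `exp (p + q t)`. -/
lemma log_le_affine {a b u t p q E P Q : ℝ} (hu : u ∈ Icc a b) (hX : 0 < P + Q * u)
    (hE0 : 0 ≤ E) (hE : E ≤ exp (p + q * t))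
    (ha : P + Q * a ≤ E * (1 + q * (a - t))) (hb : P + Q * b ≤ E * (1 + q * (b - t))) :
    log (P + Q * u) ≤ p + q * u := by
  have h := affine_nonneg (p := E * (1 - q * t) - P) (q := E * q - Q) hu (by linarith) (by linarith)
  have h0 : 0 < E * (1 + q * (u - t)) := by linarith
  have h1 : 0 < 1 + q * (u - t) := by
    by_contra hc
    linarith [mul_nonpos_of_nonneg_of_nonpos hE0 (not_lt.1 hc)]
  rw [log_le_iff_le_exp hX, show p + q * u = p + q * t + q * (u - t) by ring, exp_add]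
  calc P + Q * u ≤ E * (1 + q * (u - t)) := by linarith
    _ ≤ exp (p + q * t) * exp (q * (u - t)) :=
        mul_le_mul hE (by linarith [add_one_le_exp (q * (u - t))]) h1.le (exp_pos _).le

/-- An affine lower bound of a logarithm of a concave function, from values at the ends. -/
lemma affine_le_log {a b u p q Ea Eb X : ℝ} (hab : a < b) (hu : u ∈ Icc a b) (hX0 : 0 < X)
    (ha : exp (p + q * a) ≤ Ea) (hb : exp (p + q * b) ≤ Eb)
    (hX : (b - u) * Ea + (u - a) * Eb ≤ (b - a) * X) : p + q * u ≤ log X := by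
  rw [le_log_iff_exp_le hX0]
  exact le_of_mul_le_mul_left ((exp_affine_le_chord hu ha hb).trans hX) (sub_pos.2 hab)

/-- `1 - exp (-u)` is above its chord. -/
lemma one_sub_exp_ge_chord {a b u : ℝ} (hu : u ∈ Icc a b) {Fa Fb : ℝ}
    (ha : exp (-a) ≤ Fa) (hb : exp (-b) ≤ Fb) :
    (b - u) * (1 - Fa) + (u - a) * (1 - Fb) ≤ (b - a) * (1 - exp (-u)) := by
  have h := exp_affine_le_chord (p := 0) (q := -1) hu (by simpa using ha) (by simpa using hb)
  simp only [zero_add, neg_one_mul] at h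
  linarith

/-- `1 - exp (-u)` is below each tangent, with a lower bound `F` of `exp (-t)`. -/
lemma one_sub_exp_le_tangent {u t F : ℝ} (hF : F ≤ exp (-t)) (hu : u ≤ t + 1) :
    1 - exp (-u) ≤ 1 - F * (1 - (u - t)) := by
  have h : exp (-t) * (1 - (u - t)) ≤ exp (-u) := by
    rw [show -u = -t + -(u - t) by ring, exp_add]
    exact mul_le_mul_of_nonneg_left (by linarith [add_one_le_exp (-(u - t))]) (exp_pos _).le
  linarith [mul_le_mul_of_nonneg_right hF (by linarith : 0 ≤ 1 - (u - t))]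

/-- The two extreme values of `y` are ordered as `u - u₁`. -/
lemma log_ratio_order {u u₁ : ℝ} (hu : 0 < u) (h : u ≤ u₁) :
    log (u / u₁) ≤ log ((1 - exp (-u)) / (1 - exp (-u₁))) := by
  have hu₁ : 0 < u₁ := lt_of_lt_of_le hu h
  have hp : 0 < 1 - exp (-u₁) := by linarith [exp_lt_one_iff.2 (neg_neg_of_pos hu₁)]
  refine log_le_log (div_pos hu hu₁) ?_
  rw [div_le_div_iff₀ hu₁ hp]
  have := one_sub_exp_ge_chord (a := 0) (b := u₁) ⟨hu.le, h⟩ le_rfl le_rfl
  simp only [neg_zero, exp_zero, sub_self, mul_zero, sub_zero, zero_add] at this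
  linarith

lemma y_mem_of_le {u u₁ y : ℝ} (hu : 0 < u) (h : u ≤ u₁)
    (h0 : min (log (u / u₁)) (log ((1 - exp (-u)) / (1 - exp (-u₁)))) ≤ y)
    (h1 : y ≤ max (log (u / u₁)) (log ((1 - exp (-u)) / (1 - exp (-u₁))))) :
    log (u / u₁) ≤ y ∧ y ≤ log ((1 - exp (-u)) / (1 - exp (-u₁))) := by
  have := log_ratio_order hu h
  rw [min_eq_left this] at h0
  rw [max_eq_right this] at h1
  exact ⟨h0, h1⟩

lemma y_mem_of_ge {u u₁ y : ℝ} (hu₁ : 0 < u₁) (h : u₁ ≤ u)
    (h0 : min (log (u / u₁)) (log ((1 - exp (-u)) / (1 - exp (-u₁)))) ≤ y)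
    (h1 : y ≤ max (log (u / u₁)) (log ((1 - exp (-u)) / (1 - exp (-u₁))))) :
    log ((1 - exp (-u)) / (1 - exp (-u₁))) ≤ y ∧ y ≤ log (u / u₁) := by
  have := log_ratio_order hu₁ h
  have hu : 0 < u := lt_of_lt_of_le hu₁ h
  have hp : 0 < 1 - exp (-u₁) := by linarith [exp_lt_one_iff.2 (neg_neg_of_pos hu₁)]
  have hq : 0 < 1 - exp (-u) := by linarith [exp_lt_one_iff.2 (neg_neg_of_pos hu)]
  rw [log_div hu₁.ne' hu.ne', log_div hp.ne' hq.ne'] at this
  have e : log ((1 - exp (-u)) / (1 - exp (-u₁))) ≤ log (u / u₁) := by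
    rw [log_div hu.ne' hu₁.ne', log_div hq.ne' hp.ne']; linarith
  rw [min_eq_right e] at h0
  rw [max_eq_left e] at h1
  exact ⟨h0, h1⟩

end Vale.Agent.P254.Uncond.Check
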