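import Vale.Agent.P254.Uncond.Check.One
import Vale.Agent.P254.Uncond.Check.ReqData
import Vale.Agent.P254.Uncond.Check.ReqY

/-!
The tests of a requirement certificate on one interval of `s = √u` away from the origin.
-/

open Real Set

namespace Vale.Agent.P254.Uncond.Check

open OneCert (xP zP chordP z_lower line_spec)

/-- A two-sided bound of `exp x` for a dyadic `x` of either sign. -/
structure SExp where
  /-- the bounds at `|x|` -/
  B : ExpB
  /-- whether `x` is negative -/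
  neg : Bool

/-- The upper bound. -/
def SExp.hi (E : SExp) : Dy := if E.neg then E.B.nhi else E.B.hi

/-- The lower bound. -/
def SExp.lo (E : SExp) : Dy := if E.neg then E.B.nlo else E.B.lo

/-- The test of the bounds. -/
def SExp.ok (E : SExp) (x : Dy) : Bool := E.B.ok (if E.neg then x.neg else x)

theorem SExp.ok_spec {E : SExp} {x : Dy} (h : E.ok x = true) :
    E.lo.val ≤ exp x.val ∧ exp x.val ≤ E.hi.val := by
  obtain ⟨a, b, c, d⟩ := ExpB.ok_spec h
  rcases E with ⟨B, _ | _⟩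
  · exact ⟨a, b⟩
  · simp only [if_true, Dy.val_neg, neg_neg] at c d
    exact ⟨c, d⟩

/-- A line in `u`, evaluated at a dyadic point. -/
def lineAt (l : Dy × Dy) (u : Dy) : Dy := l.1.add (l.2.mul u)

/-- A node of the subdivision of the range of `y`: its position and the bounds of `exp (2 y)` at
the two ends of the interval. -/
structure YNode where
  /-- position in `[0, 1]` -/
  τ : Dy
  /-- bounds at the left end -/
  Ba : SExp
  /-- bounds at the right end -/
  Bb : SExp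

/-- An interval `[a, b]` of `s`: its right end, the line below `z`, the two lines around `y` with
their bounds, the affine minorant, the subdivision of `y` and the trees. -/
structure RCell where
  /-- right end -/
  b : Dy
  /-- bounds at `b ^ 2` -/
  eb : ExpB
  /-- line below `z` -/
  lz : Dy × Dy
  /-- line below `y` -/
  lo : Dy × Dy
  /-- line above `y` -/
  hi : Dy × Dy
  /-- bounds of the lower line at the left end -/
  La : SExp
  /-- bounds of the lower line at the right end -/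
  Lb : SExp
  /-- the point of tangency of the upper line, in `u` -/
  t : Dy
  /-- bounds at `t` -/
  et : ExpB
  /-- bounds of the upper line at `t` -/
  Ht : SExp
  /-- the minorant -/
  mu : Dy × Dy
  /-- least value of `exp (2 y)` at the corners -/
  F : Dy
  /-- first node -/
  n0 : YNode
  /-- other nodes, with trees for `r = 0` and `r = 1` of the segment ending there -/
  ns : List (YNode × Tree × Tree)

namespace RCell

variable (P : ReqSpl) (e1 : ExpB) (a : Dy) (ea : ExpB) (c : RCell)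

/-- Upper bound of `1 - exp (-u₁)`. -/
def cHi : Dy := (Dy.int 1).add e1.nlo.neg

/-- Lower bound of `1 - exp (-u₁)`. -/
def cLo : Dy := (Dy.int 1).add e1.nhi.neg

/-- The tests of the lines around `y`. -/
def yOk : Bool :=
  let ua := a.mul a
  let ub := c.b.mul c.b
  let u₁ := P.S₁.mul P.S₁
  let sa := (Dy.int 1).add (c.hi.2.mul (ua.add c.t.neg))
  let sb := (Dy.int 1).add (c.hi.2.mul (ub.add c.t.neg))
  let E := c.Ht.lo
  c.La.ok (lineAt c.lo ua) && c.Lb.ok (lineAt c.lo ub) && c.Ht.ok (lineAt c.hi c.t) &&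
    decide (0 ≤ E.m) &&
    if c.b.le P.S₁ then
      c.et.ok c.t && ub.le (c.t.add (Dy.int 1)) && decide (0 < (cLo e1).m) &&
        (c.La.hi.mul u₁).le ua && (c.Lb.hi.mul u₁).le ub &&
        ((Dy.int 1).add ((c.et.nlo.mul ((Dy.int 1).add (ua.add c.t.neg).neg)).neg)).le
          ((cLo e1).mul (E.mul sa)) &&
        ((Dy.int 1).add ((c.et.nlo.mul ((Dy.int 1).add (ub.add c.t.neg).neg)).neg)).le
          ((cLo e1).mul (E.mul sb))
    else
      P.S₁.le a && ((c.La.hi.mul (cHi e1)).le ((Dy.int 1).add ea.nhi.neg)) &&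
        ((c.Lb.hi.mul (cHi e1)).le ((Dy.int 1).add c.eb.nhi.neg)) &&
        ua.le (u₁.mul (E.mul sa)) && ub.le (u₁.mul (E.mul sb))

/-- The line in `u` at the node `τ`. -/
def yLine (τ : Dy) : Dy × Dy :=
  (c.lo.1.add (τ.mul (c.hi.1.add c.lo.1.neg)), c.lo.2.add (τ.mul (c.hi.2.add c.lo.2.neg)))

/-- The tests at a node. -/
def nodeOk (n : YNode) : Bool :=
  n.Ba.ok ((Dy.int 2).mul (lineAt (c.yLine n.τ) (a.mul a))) &&
    n.Bb.ok ((Dy.int 2).mul (lineAt (c.yLine n.τ) (c.b.mul c.b))) &&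
    c.F.le n.Ba.lo && c.F.le n.Bb.lo

/-- The length of the interval in `u`. -/
def width : Dy := (c.b.mul c.b).add (a.mul a).neg

/-- A line in `u` as a polynomial. -/
def lineP (l : Dy × Dy) : QP 3 := (QP.con 3 l.1).add (((xP a c.b).pow 2).scale l.2)

/-- The upper bound of `width * exp (2 y)` on the line of a node. -/
def nodeP (n : YNode) : QP 3 :=
  let u := (xP a c.b).pow 2
  let A := u.sub (QP.con 3 (a.mul a))
  let B := (QP.con 3 (c.b.mul c.b)).sub u
  let k := (c.yLine n.τ).2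
  ((B.scale n.Ba.hi).add (A.scale n.Bb.hi)).sub
    ((A.mul B).scale (((Dy.int 2).mul c.F).mul ((k.mul k).mul (width a c))))

/-- The inequality between two nodes. -/
def segP (n n' : YNode) (rr : Dy) : QP 3 :=
  let s := xP a c.b
  let u := s.pow 2
  let Y := lineP a c (c.yLine n.τ)
  let Y' := lineP a c (c.yLine n'.τ)
  let w := QP.var 3 2
  let one := QP.con 3 (Dy.int 1)
  let d := Y'.sub Y
  let E := ((((one.sub w).mul (nodeP a c n)).add (w.mul (nodeP a c n')))).sub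
    (((w.mul (one.sub w)).mul (d.mul d)).scale (((Dy.int 2).mul c.F).mul (width a c)))
  (((bodyPoly P a s (zP c.lz.1 c.lz.2 s) (Y.add (w.mul d)) rr).scale (width a c)).sub
    ((u.mul E).scale ((Dy.int P.cd).mul P.K))).sub
    ((u.mul (lineP a c c.mu)).scale ((Dy.int P.cd).mul (width a c)))

/-- The tests on the segments, from a node on. -/
def segsOk : YNode → List (YNode × Tree × Tree) → Bool
  | n, [] => (Dy.int 1).le n.τ
  | n, (n', t0, t1) :: r =>
    nodeOk a c n' && run t0 3 (segP P a c n n' (Dy.int 0)).num &&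
      run t1 3 (segP P a c n n' (Dy.int 1)).num && segsOk n' r

/-- All tests on the interval. -/
def ok : Bool :=
  decide (0 < a.m) && decide (0 < (c.b.add a.neg).m) && c.eb.ok (c.b.mul c.b) &&
    P.free a c.b && decide (0 ≤ c.F.m) &&
    ((c.lz.1.le (Dy.int 1) && c.lz.2.le OneCert.half.neg) ||
      run .leaf 3 (chordP a c.b ea c.eb c.lz.1 c.lz.2).num) &&
    yOk P e1 a ea c && c.n0.τ.le (Dy.int 0) && nodeOk a c c.n0 && segsOk P a c c.n0 c.ns

variable {P e1 a ea c}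

lemma y_range (h : yOk P e1 a ea c = true) (hea : ea.ok (a.mul a) = true)
    (heb : c.eb.ok (c.b.mul c.b) = true) (he1 : e1.ok (P.S₁.mul P.S₁) = true)
    (hS₁ : 0 < P.S₁.val) (ha : 0 < a.val) (hab : a.val < c.b.val) {u y : ℝ}
    (hu : u ∈ Icc (a.val ^ 2) (c.b.val ^ 2))
    (h0 : min (log (u / P.S₁.val ^ 2))
      (log ((1 - exp (-u)) / (1 - exp (-(P.S₁.val ^ 2))))) ≤ y)
    (h1 : y ≤ max (log (u / P.S₁.val ^ 2))
      (log ((1 - exp (-u)) / (1 - exp (-(P.S₁.val ^ 2)))))) :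
    c.lo.1.val + c.lo.2.val * u ≤ y ∧ y ≤ c.hi.1.val + c.hi.2.val * u := by
  simp only [yOk, Bool.and_eq_true, decide_eq_true_eq] at h
  obtain ⟨⟨⟨⟨hLa, hLb⟩, hHt⟩, hE0⟩, hcase⟩ := h
  obtain ⟨-, hLa⟩ := SExp.ok_spec hLa
  obtain ⟨-, hLb⟩ := SExp.ok_spec hLb
  obtain ⟨hHt, -⟩ := SExp.ok_spec hHt
  obtain ⟨-, -, hu1lo, hu1hi⟩ := ExpB.ok_spec he1
  have hE0 := Dy.val_nonneg hE0
  simp only [lineAt, Dy.val_add, Dy.val_mul, ← sq] at hLa hLb hHt hu1lo hu1hi
  have hu₁ : 0 < P.S₁.val ^ 2 := pow_pos hS₁ 2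
  have hu0 : 0 < u := lt_of_lt_of_le (pow_pos ha 2) hu.1
  have hC : 0 < 1 - exp (-(P.S₁.val ^ 2)) := by
    linarith [exp_lt_one_iff.2 (neg_neg_of_pos hu₁)]
  have hab2 : a.val ^ 2 < c.b.val ^ 2 := pow_lt_pow_left₀ hab ha.le two_ne_zero
  by_cases hb : c.b.le P.S₁ = true
  · rw [if_pos hb] at hcase
    simp only [Bool.and_eq_true, decide_eq_true_eq] at hcase
    obtain ⟨⟨⟨⟨⟨⟨het, hbt⟩, hcl⟩, h2⟩, h3⟩, h4⟩, h5⟩ := hcase
    obtain ⟨-, -, het, -⟩ := ExpB.ok_spec het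
    have hbt := Dy.le_spec hbt
    have hcl : 0 < (cLo e1).val := div_pos (Int.cast_pos.2 hcl) (by positivity)
    have h2 := Dy.le_spec h2
    have h3 := Dy.le_spec h3
    have h4 := Dy.le_spec h4
    have h5 := Dy.le_spec h5
    simp only [cLo, Dy.val_add, Dy.val_mul, Dy.val_neg, Dy.val_int, Int.cast_one, ← sq] at *
    have hle : u ≤ P.S₁.val ^ 2 := hu.2.trans
      (pow_le_pow_left₀ (ha.trans hab).le (Dy.le_spec hb) 2)
    obtain ⟨y0, y1⟩ := y_mem_of_le hu0 hle h0 h1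
    refine ⟨le_trans ?_ y0, y1.trans ?_⟩
    · refine affine_le_log hab2 hu (div_pos hu0 hu₁) hLa hLb ?_
      rw [← mul_div_assoc, le_div_iff₀ hu₁]
      linarith [mul_le_mul_of_nonneg_left h2 (sub_nonneg.2 hu.2),
        mul_le_mul_of_nonneg_left h3 (sub_nonneg.2 hu.1)]
    · have hq : 0 < 1 - exp (-u) := by linarith [exp_lt_one_iff.2 (neg_neg_of_pos hu0)]
      have hX : (1 - exp (-u)) / (1 - exp (-(P.S₁.val ^ 2))) ≤
          (1 - c.et.nlo.val * (1 + c.t.val)) / (1 + -e1.nhi.val)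
            + c.et.nlo.val / (1 + -e1.nhi.val) * u := by
        have h6 := one_sub_exp_le_tangent het (u := u) (by linarith [hu.2])
        refine (div_le_div_of_nonneg_left hq.le hcl (by linarith)).trans ?_
        rw [div_mul_eq_mul_div, ← add_div]
        exact div_le_div_of_nonneg_right (by linarith) hcl.le
      refine (log_le_log (div_pos hq hC) hX).trans
        (log_le_affine hu (lt_of_lt_of_le (div_pos hq hC) hX) hE0 hHt ?_ ?_)
      all_goals
        rw [div_mul_eq_mul_div, ← add_div, div_le_iff₀ hcl]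
        linarith
  · rw [if_neg hb] at hcase
    simp only [Bool.and_eq_true] at hcase
    obtain ⟨⟨⟨⟨hSa, h2⟩, h3⟩, h4⟩, h5⟩ := hcase
    obtain ⟨-, -, -, hea⟩ := ExpB.ok_spec hea
    obtain ⟨-, -, -, heb⟩ := ExpB.ok_spec heb
    have h2 := Dy.le_spec h2
    have h3 := Dy.le_spec h3
    have h4 := Dy.le_spec h4
    have h5 := Dy.le_spec h5
    simp only [cHi, Dy.val_add, Dy.val_mul, Dy.val_neg, Dy.val_int, Int.cast_one, ← sq] at *
    have hge : P.S₁.val ^ 2 ≤ u := (pow_le_pow_left₀ hS₁.le (Dy.le_spec hSa) 2).trans hu.1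
    obtain ⟨y0, y1⟩ := y_mem_of_ge hu₁ hge h0 h1
    refine ⟨le_trans ?_ y0, y1.trans ?_⟩
    · refine affine_le_log hab2 hu
        (div_pos (by linarith [exp_lt_one_iff.2 (neg_neg_of_pos hu0)]) hC) hLa hLb ?_
      rw [← mul_div_assoc, le_div_iff₀ hC]
      have hchord := one_sub_exp_ge_chord hu hea heb
      have ha0 := le_trans (exp_pos _).le hLa
      have hb0 := le_trans (exp_pos _).le hLb
      have : ((c.b.val ^ 2 - u) * c.La.hi.val + (u - a.val ^ 2) * c.Lb.hi.val)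
          * (1 - exp (-(P.S₁.val ^ 2))) ≤ ((c.b.val ^ 2 - u) * c.La.hi.val
            + (u - a.val ^ 2) * c.Lb.hi.val) * (1 + -e1.nlo.val) :=
        mul_le_mul_of_nonneg_left (by linarith) (add_nonneg
          (mul_nonneg (sub_nonneg.2 hu.2) ha0) (mul_nonneg (sub_nonneg.2 hu.1) hb0))
      linarith [mul_le_mul_of_nonneg_left h2 (sub_nonneg.2 hu.2),
        mul_le_mul_of_nonneg_left h3 (sub_nonneg.2 hu.1)]
    · have e : u / P.S₁.val ^ 2 = 0 + 1 / P.S₁.val ^ 2 * u := by ring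
      rw [e]
      refine log_le_affine hu (by positivity) hE0 hHt ?_ ?_
      all_goals
        rw [zero_add, div_mul_eq_mul_div, div_le_iff₀ hu₁, one_mul]
        linarith

lemma yLine_val (τ : Dy) (u : ℝ) :
    (c.yLine τ).1.val + (c.yLine τ).2.val * u = (1 - τ.val) * (c.lo.1.val + c.lo.2.val * u)
      + τ.val * (c.hi.1.val + c.hi.2.val * u) := by
  simp only [yLine, Dy.val_add, Dy.val_mul, Dy.val_neg]
  ring

lemma node_spec {n : YNode} (h : nodeOk a c n = true) (ha : 0 ≤ a.val) (hab : a.val < c.b.val)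
    {s : ℝ} (hs0 : a.val ≤ s) (hs1 : s ≤ c.b.val) {x : ℕ → ℝ} (hx : (xP a c.b).val x = s) :
    c.F.val ≤ exp (2 * ((c.yLine n.τ).1.val + (c.yLine n.τ).2.val * s ^ 2)) ∧
      exp (2 * ((c.yLine n.τ).1.val + (c.yLine n.τ).2.val * s ^ 2)) * (width a c).val ≤
        (nodeP a c n).val x := by
  simp only [nodeOk, Bool.and_eq_true] at h
  obtain ⟨⟨⟨hBa, hBb⟩, hFa⟩, hFb⟩ := h
  obtain ⟨hal, hah⟩ := SExp.ok_spec hBa
  obtain ⟨hbl, hbh⟩ := SExp.ok_spec hBb
  have hFa := (Dy.le_spec hFa).trans hal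
  have hFb := (Dy.le_spec hFb).trans hbl
  simp only [lineAt, Dy.val_add, Dy.val_mul, Dy.val_int, ← sq, Int.cast_ofNat] at hah hbh hFa hFb
  set p := (c.yLine n.τ).1.val
  set q := (c.yLine n.τ).2.val
  have hH : 0 < c.b.val ^ 2 - a.val ^ 2 := sub_pos.2 (pow_lt_pow_left₀ hab ha two_ne_zero)
  have hu0 := pow_le_pow_left₀ ha hs0 2
  have hu1 := pow_le_pow_left₀ (ha.trans hs0) hs1 2
  set θ := (s ^ 2 - a.val ^ 2) / (c.b.val ^ 2 - a.val ^ 2) with hθdef
  have hθ : θ ∈ Icc (0:ℝ) 1 :=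
    ⟨div_nonneg (sub_nonneg.2 hu0) hH.le, (div_le_one hH).2 (by linarith)⟩
  have hθH : θ * (c.b.val ^ 2 - a.val ^ 2) = s ^ 2 - a.val ^ 2 := div_mul_cancel₀ _ hH.ne'
  have e : (1 - θ) * (2 * (p + q * a.val ^ 2)) + θ * (2 * (p + q * c.b.val ^ 2))
      = 2 * (p + q * s ^ 2) := by linear_combination (2 * q) * hθH
  refine ⟨?_, ?_⟩
  · rcases le_total 0 q with hq | hq
    · refine hFa.trans (exp_le_exp.2 ?_)
      linarith [mul_le_mul_of_nonneg_left hu0 hq]
    · refine hFb.trans (exp_le_exp.2 ?_)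
      linarith [mul_le_mul_of_nonpos_left hu1 hq]
  · have h := exp_le_strong_chord hθ hah hbh hFa hFb
    rw [e] at h
    have hw : (width a c).val = c.b.val ^ 2 - a.val ^ 2 := by
      simp [width, Dy.val_add, Dy.val_mul, Dy.val_neg, sq, sub_eq_add_neg]
    rw [hw]
    refine (mul_le_mul_of_nonneg_right h hH.le).trans_eq ?_
    simp only [nodeP, QP.val_sub, QP.val_add, QP.val_scale, QP.val_mul, QP.val_pow, QP.val_con,
      Dy.val_mul, hx, Dy.val_int, hw]
    push_cast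
    rw [hθdef]
    field_simp
    ring

/-- What the tests give on the interval. -/
theorem cell_spec (h : ok P e1 a ea c = true) (hea : ea.ok (a.mul a) = true)
    (he1 : e1.ok (P.S₁.mul P.S₁) = true) (hS₁ : 0 < P.S₁.val) (hS₀ : 0 < P.S₀.val)
    (hK : 1 ≤ P.K.val * (2 * P.S₀.val)) (hcd : P.cd ≠ 0) (m : ℝ → ℝ) {u z r y : ℝ}
    (hu0 : a.val ≤ √u) (hu1 : √u ≤ c.b.val) (hz0 : 0 ≤ z) (hz1 : z ≤ 1)
    (hzu : u ≤ z * (exp u - 1)) (hr0 : 0 ≤ r) (hr1 : r ≤ 1)
    (hy0 : min (log (u / P.S₁.val ^ 2))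
      (log ((1 - exp (-u)) / (1 - exp (-(P.S₁.val ^ 2))))) ≤ y)
    (hy1 : y ≤ max (log (u / P.S₁.val ^ 2))
      (log ((1 - exp (-u)) / (1 - exp (-(P.S₁.val ^ 2)))))) :
    c.mu.1.val + c.mu.2.val * u ≤ (P.toData m).psi (P.cn / P.cd) u z r y := by
  simp only [ok, Bool.and_eq_true, Bool.or_eq_true, decide_eq_true_eq] at h
  obtain ⟨⟨⟨⟨⟨⟨⟨⟨⟨ha0, hw⟩, heb⟩, hfree⟩, hF⟩, hl⟩, hY⟩, hn0⟩, hnode⟩, hsegs⟩ := h
  have ha : 0 < a.val := div_pos (Int.cast_pos.2 ha0) (by positivity)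
  have hwp : 0 < c.b.val - a.val := by
    have : (0:ℝ) < (c.b.add a.neg).val := div_pos (Int.cast_pos.2 hw) (by positivity)
    rw [Dy.val_add, Dy.val_neg] at this
    linarith
  have hab : a.val < c.b.val := sub_pos.1 hwp
  have hu : 0 < u := sqrt_pos.1 (lt_of_lt_of_le ha hu0)
  obtain ⟨s, hs, rfl⟩ : ∃ s, 0 < s ∧ u = s ^ 2 := ⟨√u, sqrt_pos.2 hu, (sq_sqrt hu.le).symm⟩
  rw [sqrt_sq hs.le] at hu0 hu1
  obtain ⟨hlo, hhi⟩ := y_range hY hea heb he1 hS₁ ha hab
    ⟨pow_le_pow_left₀ ha.le hu0 2, pow_le_pow_left₀ hs.le hu1 2⟩ hy0 hy1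
  set σ := (s - a.val) / (c.b.val - a.val) with hσdef
  have hσ : 0 ≤ σ ∧ σ ≤ 1 := ⟨div_nonneg (by linarith) hwp.le, (div_le_one hwp).2 (by linarith)⟩
  have hX : ∀ x : ℕ → ℝ, x 0 = σ → (xP a c.b).val x = s := fun x hx => by
    simp only [xP, QP.val_add, QP.val_con, QP.val_scale, Dy.val_add, Dy.val_neg,
      QP.val_var (show 0 < 3 by norm_num), hx, hσdef]
    field_simp
    ring
  set x₀ : ℕ → ℝ := fun i => if i = 0 then σ else 0
  have hx₀ : ∀ i, 0 ≤ x₀ i ∧ x₀ i ≤ 1 := fun i => by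
    simp only [x₀]; split_ifs
    · exact hσ
    · exact ⟨le_rfl, zero_le_one⟩
  have hL : c.lz.1.val + c.lz.2.val * s ^ 2 ≤ z := z_lower hu hz0 hzu fun hL =>
    line_spec (c := ⟨c.b, c.eb, c.lz.1, c.lz.2, c.mu.1, c.mu.2, .leaf⟩) hl ha0.le hea heb hu0 hu1
      hwp (hX x₀ (by simp [x₀])) hx₀ hL
  set L := c.lz.1.val + c.lz.2.val * s ^ 2 with hLdef
  obtain ⟨ζ, hζ, hzζ⟩ : ∃ ζ, ζ ∈ Icc (0:ℝ) 1 ∧ 1 - (1 - L) * ζ = z := by
    rcases lt_or_ge L 1 with hL1 | hL1
    · refine ⟨(1 - z) / (1 - L), ⟨div_nonneg (by linarith) (by linarith),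
        (div_le_one (by linarith)).2 (by linarith)⟩, ?_⟩
      rw [mul_div_cancel₀ _ (by linarith : (1:ℝ) - L ≠ 0)]
      ring
    · exact ⟨0, ⟨le_rfl, zero_le_one⟩, by linarith⟩
  set lo := c.lo.1.val + c.lo.2.val * s ^ 2
  set hi := c.hi.1.val + c.hi.2.val * s ^ 2
  obtain ⟨τ, hτ0, hτ1, hyτ⟩ : ∃ τ, 0 ≤ τ ∧ τ ≤ 1 ∧ y = (1 - τ) * lo + τ * hi := by
    rcases (hlo.trans hhi).eq_or_lt with he | hlt
    · exact ⟨0, le_rfl, zero_le_one, by linarith⟩
    · refine ⟨(y - lo) / (hi - lo), div_nonneg (by linarith) (by linarith),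
        (div_le_one (by linarith)).2 (by linarith), ?_⟩
      have hne : hi - lo ≠ 0 := by linarith
      field_simp
      ring
  have key : ∀ (l : List (YNode × Tree × Tree)) (n : YNode), nodeOk a c n = true →
      segsOk P a c n l = true → n.τ.val ≤ τ →
      ∃ (n₀ n₁ : YNode) (w : ℝ) (t0 t1 : Tree), w ∈ Icc (0:ℝ) 1 ∧
        τ = (1 - w) * n₀.τ.val + w * n₁.τ.val ∧ nodeOk a c n₀ = true ∧ nodeOk a c n₁ = true ∧
        run t0 3 (segP P a c n₀ n₁ (Dy.int 0)).num = true ∧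
        run t1 3 (segP P a c n₀ n₁ (Dy.int 1)).num = true ∨ τ = n₀.τ.val ∧ n₀ = n := by
    intro l
    induction l with
    | nil =>
      intro n _ hs hn
      simp only [segsOk] at hs
      have := Dy.le_spec hs
      rw [Dy.val_int, Int.cast_one] at this
      exact ⟨n, n, 0, .leaf, .leaf, Or.inr ⟨by linarith, rfl⟩⟩
    | cons q r ih =>
      obtain ⟨n', t0, t1⟩ := q
      intro n hn hs hle
      simp only [segsOk, Bool.and_eq_true] at hs
      obtain ⟨⟨⟨hn', h0⟩, h1⟩, hr⟩ := hs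
      rcases le_total τ n'.τ.val with hτ | hτ
      · rcases (hle.trans hτ).eq_or_lt with he | hlt
        · exact ⟨n, n', 0, t0, t1,
            Or.inl ⟨⟨le_rfl, zero_le_one⟩, by linarith, hn, hn', h0, h1⟩⟩
        · refine ⟨n, n', (τ - n.τ.val) / (n'.τ.val - n.τ.val), t0, t1, Or.inl
            ⟨⟨div_nonneg (by linarith) (by linarith), (div_le_one (by linarith)).2 (by linarith)⟩,
              ?_, hn, hn', h0, h1⟩⟩
          have hne : n'.τ.val - n.τ.val ≠ 0 := by linarith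
          field_simp
          ring
      · obtain ⟨n₀, n₁, w, s0, s1, h | ⟨hw, rfl⟩⟩ := ih n' hn' hr hτ
        · exact ⟨n₀, n₁, w, s0, s1, Or.inl h⟩
        · exact ⟨n, n₀, 1, t0, t1, Or.inl ⟨⟨zero_le_one, le_rfl⟩, by linarith, hn, hn', h0, h1⟩⟩
  have main : ∀ (n₀ n₁ : YNode) (w : ℝ) (t : Tree) (rr : Dy), w ∈ Icc (0:ℝ) 1 →
      τ = (1 - w) * n₀.τ.val + w * n₁.τ.val → nodeOk a c n₀ = true → nodeOk a c n₁ = true →
      run t 3 (segP P a c n₀ n₁ rr).num = true →
      c.mu.1.val + c.mu.2.val * s ^ 2 ≤ (P.toData m).psi (P.cn / P.cd) (s ^ 2) z rr.val y := by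
    intro n₀ n₁ w t rr hw hwτ hn₀ hn₁ hrun
    set x : ℕ → ℝ := fun i => if i = 0 then σ else if i = 1 then ζ else w
    have hx : ∀ i, 0 ≤ x i ∧ x i ≤ 1 := fun i => by
      simp only [x]; split_ifs
      · exact hσ
      · exact hζ
      · exact hw
    have hv : (xP a c.b).val x = s := hX x (by simp [x])
    have hx1 : (QP.var 3 1).val x = ζ := by rw [QP.val_var (by norm_num : 1 < 3)]; simp [x]
    have hx2 : (QP.var 3 2).val x = w := by rw [QP.val_var (by norm_num : 2 < 3)]; simp [x]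
    obtain ⟨hF₀, hN₀⟩ := node_spec hn₀ ha.le hab hu0 hu1 hv
    obtain ⟨hF₁, hN₁⟩ := node_spec hn₁ ha.le hab hu0 hu1 hv
    set Y := (c.yLine n₀.τ).1.val + (c.yLine n₀.τ).2.val * s ^ 2 with hY₀
    set Y' := (c.yLine n₁.τ).1.val + (c.yLine n₁.τ).2.val * s ^ 2 with hY₁
    set W := (width a c).val
    have hW : 0 < W := by
      have : W = c.b.val ^ 2 - a.val ^ 2 := by
        simp [W, width, Dy.val_add, Dy.val_mul, Dy.val_neg, sq, sub_eq_add_neg]
      rw [this]
      exact sub_pos.2 (pow_lt_pow_left₀ hab ha.le two_ne_zero)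
    have hyY : y = (1 - w) * Y + w * Y' := by
      rw [hY₀, hY₁, yLine_val, yLine_val, hyτ, hwτ]
      ring
    have hexp := exp_le_strong_chord (E₀ := (nodeP a c n₀).val x / W)
      (E₁ := (nodeP a c n₁).val x / W) hw ((le_div_iff₀ hW).2 hN₀) ((le_div_iff₀ hW).2 hN₁) hF₀ hF₁
    rw [show (1 - w) * (2 * Y) + w * (2 * Y') = 2 * y by rw [hyY]; ring] at hexp
    have hexp' : W * exp (2 * y) ≤ (1 - w) * (nodeP a c n₀).val x + w * (nodeP a c n₁).val x
        - 2 * c.F.val * W * (w * (1 - w) * (Y' - Y) ^ 2) := by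
      refine (mul_le_mul_of_nonneg_left hexp hW.le).trans_eq ?_
      field_simp
    have hnn := QP.nonneg hrun hx
    have hZ : (zP c.lz.1 c.lz.2 (xP a c.b)).val x = z := by
      simp only [zP, QP.val_sub, QP.val_add, QP.val_mul, QP.val_scale, QP.val_pow, QP.val_con,
        hx1, Dy.val_int, hv]
      push_cast
      rw [← hLdef]
      exact hzζ
    have hline : ∀ l : Dy × Dy, (lineP a c l).val x = l.1.val + l.2.val * s ^ 2 := fun l => by
      simp only [lineP, QP.val_add, QP.val_con, QP.val_scale, QP.val_pow, hv]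
    have hyv : ((lineP a c (c.yLine n₀.τ)).add
        ((QP.var 3 2).mul ((lineP a c (c.yLine n₁.τ)).sub (lineP a c (c.yLine n₀.τ))))).val x
        = y := by
      simp only [QP.val_add, QP.val_mul, QP.val_sub, hline, hx2]
      rw [hyY, hY₀, hY₁]
      ring
    have hsv : (xP a c.b).val x = √(s ^ 2) := by rw [hv, sqrt_sq hs.le]
    have hb := bodyPoly_val (m := m) (rr := rr) (z := zP c.lz.1 c.lz.2 (xP a c.b))
      (y := (lineP a c (c.yLine n₀.τ)).add
        ((QP.var 3 2).mul ((lineP a c (c.yLine n₁.τ)).sub (lineP a c (c.yLine n₀.τ)))))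
      hu hsv (P.polyAt hfree (by rw [hv]; exact hu0) (by rw [hv]; exact hu1)) hcd
    rw [hZ, hyv] at hb
    simp only [segP, QP.val_sub, QP.val_add, QP.val_scale, QP.val_mul, QP.val_pow, QP.val_con,
      Dy.val_mul, Dy.val_int, hb, hv, hx2, hline] at hnn
    push_cast at hnn
    set ψ := (P.toData m).psi (P.cn / P.cd) (s ^ 2) z rr.val y
    have hcdp : (0:ℝ) < P.cd := by exact_mod_cast Nat.pos_of_ne_zero hcd
    have hK0 : 0 ≤ P.K.val :=
      le_of_lt (pos_of_mul_pos_left (lt_of_lt_of_le one_pos hK) (by positivity))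
    have hKE : W * (exp (2 * y) / (2 * P.S₀.val)) ≤ P.K.val * (W * exp (2 * y)) := by
      rw [← mul_div_assoc, div_le_iff₀ (by positivity)]
      have := mul_le_mul_of_nonneg_left hK (mul_nonneg hW.le (exp_pos (2 * y)).le)
      linarith
    have h2 := mul_le_mul_of_nonneg_left (hKE.trans (mul_le_mul_of_nonneg_left hexp' hK0))
      (mul_nonneg hcdp.le hu.le)
    refine le_of_mul_le_mul_left ?_ (mul_pos (mul_pos hcdp hu) hW)
    rw [← hY₀, ← hY₁] at hnn
    linarith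
  obtain ⟨n₀, n₁, w, t0, t1, hcov⟩ := key c.ns c.n0 hnode hsegs
    (le_trans (Dy.le_spec hn0) (by simpa using hτ0))
  have hends : c.mu.1.val + c.mu.2.val * s ^ 2 ≤ (P.toData m).psi (P.cn / P.cd) (s ^ 2) z 0 y ∧
      c.mu.1.val + c.mu.2.val * s ^ 2 ≤ (P.toData m).psi (P.cn / P.cd) (s ^ 2) z 1 y := by
    rcases hcov with ⟨hw, hwτ, hn₀, hn₁, h0, h1⟩ | ⟨hτn, rfl⟩
    · refine ⟨?_, ?_⟩
      · simpa using main n₀ n₁ w t0 (Dy.int 0) hw hwτ hn₀ hn₁ h0
      · simpa using main n₀ n₁ w t1 (Dy.int 1) hw hwτ hn₀ hn₁ h1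
    · rcases hns : c.ns with _ | ⟨⟨n', s0, s1⟩, rest⟩
      · exfalso
        rw [hns] at hsegs
        simp only [segsOk] at hsegs
        have := Dy.le_spec hsegs
        have := Dy.le_spec hn0
        rw [Dy.val_int] at *
        push_cast at *
        linarith
      · rw [hns] at hsegs
        simp only [segsOk, Bool.and_eq_true] at hsegs
        obtain ⟨⟨⟨hn', h0⟩, h1⟩, -⟩ := hsegs
        refine ⟨?_, ?_⟩
        · simpa using main c.n0 n' 0 s0 (Dy.int 0) ⟨le_rfl, zero_le_one⟩ (by linarith) hnode hn' h0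
        · simpa using main c.n0 n' 0 s1 (Dy.int 1) ⟨le_rfl, zero_le_one⟩ (by linarith) hnode hn' h1
  have e : (P.toData m).psi (P.cn / P.cd) (s ^ 2) z r y
      = (1 - r) * (P.toData m).psi (P.cn / P.cd) (s ^ 2) z 0 y
        + r * (P.toData m).psi (P.cn / P.cd) (s ^ 2) z 1 y := by
    simp only [ReqData.psi]
    ring
  rw [e]
  linarith [mul_le_mul_of_nonneg_left hends.1 (sub_nonneg.2 hr1),
    mul_le_mul_of_nonneg_left hends.2 hr0]

end RCell

end Vale.Agent.P254.Uncond.Check
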