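import Vale.Agent.P254.Uncond.Check.Req

/-!
The requirement checker cut into separately checkable facts, so that a data file can prove each
interval, and each segment, in a theorem of its own and the kernel frees its memory in between.
-/

namespace Vale.Agent.P254.Uncond.Check

namespace RCell

variable (P : ReqSpl) (e1 : ExpB) (a : Dy) (ea : ExpB) (c : RCell)

/-- The tests on an interval apart from the segments. -/
def head : Bool :=
  decide (0 < a.m) && decide (0 < (c.b.add a.neg).m) && c.eb.ok (c.b.mul c.b) &&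
    P.free a c.b && decide (0 ≤ c.F.m) &&
    ((c.lz.1.le (Dy.int 1) && c.lz.2.le OneCert.half.neg) ||
      run .leaf 3 (OneCert.chordP a c.b ea c.eb c.lz.1 c.lz.2).num) &&
    yOk P e1 a ea c && c.n0.τ.le (Dy.int 0) && nodeOk a c c.n0

variable {P e1 a ea c}

/-- An interval passes when its other tests and its segments do. -/
theorem ok_of (h : head P e1 a ea c = true) (hs : segsOk P a c c.n0 c.ns = true) :
    RCell.ok P e1 a ea c = true := by
  simp only [head, Bool.and_eq_true] at h
  simp only [RCell.ok, Bool.and_eq_true]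
  exact ⟨h, hs⟩

/-- The end of the segments. -/
theorem segsOk_nil {n : YNode} (h : (Dy.int 1).le n.τ = true) : segsOk P a c n [] = true := by
  simpa [segsOk] using h

/-- One segment. -/
theorem segsOk_cons {n n' : YNode} {t0 t1 : Tree} {r : List (YNode × Tree × Tree)}
    (hn : nodeOk a c n' = true) (h0 : run t0 3 (segP P a c n n' (Dy.int 0)).num = true)
    (h1 : run t1 3 (segP P a c n n' (Dy.int 1)).num = true) (hr : segsOk P a c n' r = true) :
    segsOk P a c n ((n', t0, t1) :: r) = true := by
  simp only [segsOk, Bool.and_eq_true]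
  exact ⟨⟨⟨hn, h0⟩, h1⟩, hr⟩

end RCell

namespace ReqCert

variable (D : ReqCert)

/-- The tests of a certificate apart from the intervals and the final comparison. -/
def head : Bool :=
  decide (0 < D.ed) && decide (0 < D.P.S₀.m) && decide (0 < D.P.S₁.m) &&
    D.P.regular ((D.cells.getLast?.map RCell.b).getD D.first.b) &&
    (Dy.int 1).le (D.P.K.mul ((Dy.int 2).mul D.P.S₀)) &&
    D.e₁.ok (D.P.S₁.mul D.P.S₁) && D.eLS.ok D.LS && D.P.S₀.le D.eLS.lo &&
    OneCert.knotsOk D.P.β && OneCert.knotsOk D.P.γ && OneCert.exp0.ok (Dy.int 0)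

/-- The tests on the first interval apart from the two inequalities. -/
def firstHead : Bool :=
  let F := D.first
  let X := OneCert.xP (Dy.int 0) F.b
  decide (0 < F.b.m) && F.b.le (Dy.int 1) && F.b.le D.P.S₁ && F.eb.ok (F.b.mul F.b) &&
    D.P.free (Dy.int 0) F.b && D.P.q.base.all (fun a => a.m == 0) &&
    D.P.q.trs.all (fun t => F.b.le t.1) &&
    ((F.lz.1.le (Dy.int 1) && F.lz.2.le OneCert.half.neg) ||
      run .leaf 3 (OneCert.chordP (Dy.int 0) F.b OneCert.exp0 F.eb F.lz.1 F.lz.2).num) &&
    decide (0 ≤ F.lam.m) && F.eL₁.ok F.L₁ && (D.P.S₁.mul D.P.S₁).le F.eL₁.lo &&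
    F.eLb.ok F.Lb && F.eLb.hi.le (F.b.mul F.b) &&
    decide (0 < (RCell.cLo D.e₁).m) &&
    D.P.K.le (F.Kc.mul ((RCell.cLo D.e₁).mul (RCell.cLo D.e₁))) &&
    run .leaf 3 (D.aP X).num &&
    run .leaf 3 (((X.pow 2).scale ((Dy.int D.P.cd).mul F.lam)).sub (D.aP X)).num

/-- The tests on the last interval apart from the two inequalities. -/
def tailHead (a : Dy) (ea : ExpB) : Bool :=
  let T := D.last
  let U := a.mul a
  let u₁ := D.P.S₁.mul D.P.S₁
  decide (0 < a.m) && D.P.S₁.le a && D.P.before a &&
    T.eY.ok T.Ylo && (T.eY.hi.mul (RCell.cHi D.e₁)).le ((Dy.int 1).add ea.nhi.neg) &&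
    T.eLU.ok T.LU && U.le (T.eLU.lo.mul u₁) && (Dy.int 1).le (T.invU.mul U) &&
    D.P.K.le (T.Kt.mul (u₁.mul u₁))

variable {D}

/-- The first interval from its parts. -/
theorem firstOk_of (h : D.firstHead = true)
    (h0 : run D.first.t₀ 3 (D.firstP (Dy.int 0)).num = true)
    (h1 : run D.first.t₁ 3 (D.firstP (Dy.int 1)).num = true) : D.firstOk = true := by
  simp only [firstHead, Bool.and_eq_true] at h
  simp only [firstOk, Bool.and_eq_true]
  exact ⟨⟨h, h0⟩, h1⟩

/-- The last interval from its parts. -/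
theorem tailOk_of {a : Dy} {ea : ExpB} (h : D.tailHead a ea = true)
    (h0 : runTail D.last.t₀ 2 (D.tailP a (Dy.int 0)).num = true)
    (h1 : runTail D.last.t₁ 2 (D.tailP a (Dy.int 1)).num = true) : D.tailOk a ea = true := by
  simp only [tailHead, Bool.and_eq_true] at h
  simp only [tailOk, Bool.and_eq_true]
  exact ⟨⟨h, h0⟩, h1⟩

/-- No intervals left. -/
theorem allOk_nil {a : Dy} {ea : ExpB} (h : D.tailOk a ea = true) : D.allOk a ea [] = true := by
  simpa [allOk] using h

/-- One interval. -/
theorem allOk_cons {a : Dy} {ea : ExpB} {c : RCell} {r : List RCell}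
    (h : RCell.ok D.P D.e₁ a ea c = true) (hr : D.allOk c.b c.eb r = true) :
    D.allOk a ea (c :: r) = true := by
  simp only [allOk, Bool.and_eq_true]
  exact ⟨h, hr⟩

/-- The whole test from its parts. -/
theorem ok_of (h : D.head = true) (hf : D.firstOk = true)
    (ha : D.allOk D.first.b D.first.eb D.cells = true) (hfin : D.finalOk = true) : D.ok = true := by
  simp only [head, Bool.and_eq_true] at h
  simp only [ok, Bool.and_eq_true]
  exact ⟨⟨⟨h, hf⟩, ha⟩, hfin⟩

end ReqCert

end Vale.Agent.P254.Uncond.Check
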